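import Mathlib

open Finset

namespace Vale.Agent.P012

lemma coprime_prod_primes (s t : Finset ℕ) (hs : ∀ p ∈ s, p.Prime) (ht : ∀ p ∈ t, p.Prime)
    (hst : Disjoint s t) : Nat.Coprime (∏ p ∈ s, p) (∏ p ∈ t, p) := by
  apply Nat.Coprime.prod_left
  intro p hp
  apply Nat.Coprime.prod_right
  intro q hq
  rw [Nat.coprime_primes (hs p hp) (ht q hq)]
  rintro rfl
  exact (Finset.disjoint_left.mp hst hp) hq

lemma card_divisors_prod_primes (s : Finset ℕ) (hs : ∀ p ∈ s, p.Prime) :
    (∏ p ∈ s, p).divisors.card = 2 ^ s.card := by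
  induction s using Finset.induction_on with
  | empty => simp
  | insert a s ha ih =>
    have hap : a.Prime := hs a (mem_insert_self _ _)
    have hs' : ∀ p ∈ s, p.Prime := fun p hp => hs p (mem_insert_of_mem hp)
    rw [prod_insert ha, card_insert_of_notMem ha]
    have hc : Nat.Coprime a (∏ p ∈ s, p) := by
      apply Nat.Coprime.prod_right
      intro q hq
      rw [Nat.coprime_primes hap (hs' q hq)]
      rintro rfl
      exact ha hq
    rw [Nat.Coprime.card_divisors_mul hc, ih hs', hap.divisors,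
      card_pair hap.one_lt.ne, pow_succ, mul_comm]

lemma card_divisors_primorial (P : ℕ) :
    (primorial P).divisors.card = 2 ^ (Nat.primesLE P).card := by
  rw [primorial_eq_prod_primesLE]
  exact card_divisors_prod_primes _ fun p hp => Nat.prime_of_mem_primesLE hp

lemma eq_of_modEq_of_le {a b e : ℕ} (h : a ≡ b [MOD e]) (ha : 0 < a) (hb : 0 < b)
    (ha' : a ≤ e) (hb' : b ≤ e) : a = b := by
  rcases le_total a b with hab | hab
  · have h1 := (Nat.modEq_iff_dvd' hab).mp h
    have h2 : b - a < e := by omega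
    have h3 := Nat.eq_zero_of_dvd_of_lt h1 h2
    omega
  · have h1 := (Nat.modEq_iff_dvd' hab).mp h.symm
    have h2 : a - b < e := by omega
    have h3 := Nat.eq_zero_of_dvd_of_lt h1 h2
    omega

lemma coll_bound (P l e : ℕ) (hl : l ≤ (Nat.primesLE P).card) (hP : P ^ l ≤ e)
    (hc : e.Coprime (primorial P)) :
    (((primorial P).divisors ×ˢ (primorial P).divisors).filter
      (fun p => p.1 ≡ p.2 [MOD e])).card * 2 ^ l ≤ (primorial P).divisors.card ^ 2 := by
  obtain ⟨s, hs, hcard⟩ := exists_subset_card_eq hl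
  have hsp : ∀ p ∈ s, p.Prime := fun p hp => Nat.prime_of_mem_primesLE (hs hp)
  have htp : ∀ p ∈ Nat.primesLE P \ s, p.Prime := fun p hp =>
    Nat.prime_of_mem_primesLE (mem_sdiff.mp hp).1
  set Q := ∏ p ∈ s, p with hQ
  set G' := ∏ p ∈ Nat.primesLE P \ s, p with hG'
  have hG : primorial P = Q * G' := by
    rw [primorial_eq_prod_primesLE, hQ, hG', mul_comm, prod_sdiff hs]
  have hcop : Nat.Coprime Q G' := coprime_prod_primes _ _ hsp htp disjoint_sdiff
  have hQle : Q ≤ e := by
    refine le_trans ?_ hP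
    rw [← hcard]
    exact prod_le_pow_card _ _ _ fun p hp => Nat.le_of_mem_primesLE (hs hp)
  have hQ0 : 0 < Q := prod_pos fun p hp => (hsp p hp).pos
  have hG'0 : 0 < G' := prod_pos fun p hp => (htp p hp).pos
  have hDcard : (primorial P).divisors.card = 2 ^ l * G'.divisors.card := by
    rw [hG, Nat.Coprime.card_divisors_mul hcop, hQ, card_divisors_prod_primes s hsp, hcard]
  have hkey : (((primorial P).divisors ×ˢ (primorial P).divisors).filter
      (fun p => p.1 ≡ p.2 [MOD e])).card ≤ ((primorial P).divisors ×ˢ G'.divisors).card := by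
    apply card_le_card_of_injOn (fun p => (p.1, Nat.gcd p.2 G'))
    · intro p hp
      have hp1 := mem_filter.mp hp
      have hp2 := mem_product.mp hp1.1
      rw [mem_coe, mem_product]
      refine ⟨hp2.1, ?_⟩
      rw [Nat.mem_divisors]
      exact ⟨Nat.gcd_dvd_right _ _, hG'0.ne'⟩
    · intro p hp p' hp' h
      have hp1 := mem_filter.mp hp
      have hp2 := mem_product.mp hp1.1
      have hp1' := mem_filter.mp hp'
      have hp2' := mem_product.mp hp1'.1
      simp only [Prod.mk.injEq] at h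
      obtain ⟨h1, h2⟩ := h
      have hd : p.2 = Nat.gcd p.2 Q * Nat.gcd p.2 G' := by
        rw [← Nat.Coprime.gcd_mul _ hcop, ← hG]
        exact (Nat.gcd_eq_left (Nat.dvd_of_mem_divisors hp2.2)).symm
      have hd' : p'.2 = Nat.gcd p'.2 Q * Nat.gcd p'.2 G' := by
        rw [← Nat.Coprime.gcd_mul _ hcop, ← hG]
        exact (Nat.gcd_eq_left (Nat.dvd_of_mem_divisors hp2'.2)).symm
      have hmod : p.2 ≡ p'.2 [MOD e] := by
        refine hp1.2.symm.trans ?_
        rw [h1]
        exact hp1'.2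
      rw [hd, hd', ← h2] at hmod
      have hcg : Nat.Coprime e (Nat.gcd p.2 G') := by
        apply Nat.Coprime.coprime_dvd_right _ hc
        rw [hG]
        exact (Nat.gcd_dvd_right _ _).trans (Dvd.intro_left _ rfl)
      have h3 := Nat.ModEq.cancel_right_of_coprime hcg hmod
      have h4 : Nat.gcd p.2 Q = Nat.gcd p'.2 Q := by
        apply eq_of_modEq_of_le h3 (Nat.gcd_pos_of_pos_right _ hQ0) (Nat.gcd_pos_of_pos_right _ hQ0)
        · exact (Nat.gcd_le_right _ hQ0).trans hQle
        · exact (Nat.gcd_le_right _ hQ0).trans hQle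
      apply Prod.ext h1
      rw [hd, hd', h4, h2]
  rw [card_product] at hkey
  calc _ ≤ (primorial P).divisors.card * G'.divisors.card * 2 ^ l := Nat.mul_le_mul_right _ hkey
    _ = _ := by
      rw [sq]
      conv_rhs => rw [hDcard]
      rw [hDcard]
      ring

/-- every integer `e > 1` coprime to the primorial of `P` exceeds `P` -/
lemma lt_of_coprime_primorial (P e : ℕ) (he : 1 < e) (hc : e.Coprime (primorial P)) : P < e := by
  by_contra h
  push Not at h
  have hp := Nat.minFac_prime (n := e) (by omega)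
  have h1 : e.minFac ∣ primorial P := by
    rw [primorial_eq_prod_primesLE]
    apply dvd_prod_of_mem
    rw [Nat.mem_primesLE]
    exact ⟨(Nat.minFac_le (by omega)).trans h, hp⟩
  have h2 := Nat.dvd_gcd (Nat.minFac_dvd e) h1
  rw [hc] at h2
  exact hp.one_lt.ne' (Nat.dvd_one.mp h2)

lemma coprime_two_pow_of_coprime_primorial (P e k : ℕ) (hP : 2 ≤ P) (hc : e.Coprime (primorial P)) :
    Nat.Coprime (2 ^ k) e := by
  apply Nat.Coprime.pow_left
  have h1 : 2 ∣ primorial P := by
    rw [primorial_eq_prod_primesLE]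
    apply dvd_prod_of_mem
    rw [Nat.mem_primesLE]
    exact ⟨hP, Nat.prime_two⟩
  exact (Nat.Coprime.coprime_dvd_right h1 hc).symm

/-- if `2^(k+1)` divides `s*g` with `g` a divisor of the primorial, then `2^k ∣ s` -/
lemma two_pow_dvd_of_dvd_mul (P s g k : ℕ) (hP : 2 ≤ P) (hg : g ∣ primorial P)
    (h : 2 ^ (k + 1) ∣ s * g) : 2 ^ k ∣ s := by
  have h2mem : 2 ∈ Nat.primesLE P := by
    rw [Nat.mem_primesLE]
    exact ⟨hP, Nat.prime_two⟩
  have h1 : primorial P = 2 * ∏ p ∈ (Nat.primesLE P).erase 2, p := by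
    rw [primorial_eq_prod_primesLE, mul_prod_erase _ (fun p => p) h2mem]
  have h2 : Nat.Coprime 2 (∏ p ∈ (Nat.primesLE P).erase 2, p) := by
    apply Nat.Coprime.prod_right
    intro q hq
    rw [mem_erase] at hq
    rw [Nat.coprime_primes Nat.prime_two (Nat.prime_of_mem_primesLE hq.2)]
    exact fun h => hq.1 h.symm
  have h3 : 2 ^ (k + 1) ∣ s * (2 * ∏ p ∈ (Nat.primesLE P).erase 2, p) := by
    rw [← h1]
    exact h.trans (Nat.mul_dvd_mul_left _ hg)
  have h4 : 2 * 2 ^ k ∣ 2 * (s * ∏ p ∈ (Nat.primesLE P).erase 2, p) := by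
    rw [pow_succ] at h3
    convert h3 using 1 <;> ring
  have h5 := Nat.dvd_of_mul_dvd_mul_left (by norm_num) h4
  exact (Nat.Coprime.pow_left k h2).dvd_of_dvd_mul_right h5

end Vale.Agent.P012
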