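import Mathlib

open Finset

namespace Vale.Agent.P012

lemma prod_one_sub_inv_ge (S : Finset ℕ) (hS : ∀ k ∈ S, 2 ≤ k) :
    (1 : ℚ) / (S.card + 1) ≤ ∏ k ∈ S, (1 - (k : ℚ)⁻¹) := by
  induction S using Finset.induction_on_max with
  | empty => simp
  | insert a s hs ih =>
    have ha : a ∉ s := fun h => lt_irrefl _ (hs a h)
    have ih' := ih fun k hk => hS k (mem_insert_of_mem hk)
    have ha2 : 2 ≤ a := hS a (mem_insert_self _ _)
    have hcard : s.card ≤ a - 2 := by
      have : s ⊆ Ico 2 a := fun x hx => mem_Ico.mpr ⟨hS x (mem_insert_of_mem hx), hs x hx⟩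
      have := card_le_card this
      rwa [Nat.card_Ico] at this
    rw [prod_insert ha, card_insert_of_notMem ha]
    have h1 : ((s.card : ℚ) + 1) / (s.card + 2) ≤ 1 - (a : ℚ)⁻¹ := by
      have h2 : ((s.card : ℚ) + 2) ≤ a := by
        have : s.card + 2 ≤ a := by omega
        exact_mod_cast this
      have h3 : (a : ℚ)⁻¹ ≤ ((s.card : ℚ) + 2)⁻¹ := inv_anti₀ (by positivity) h2
      have h4 : ((s.card : ℚ) + 1) / (s.card + 2) = 1 - ((s.card : ℚ) + 2)⁻¹ := by
        field_simp
        ring
      rw [h4]; linarith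
    calc (1 : ℚ) / (((s.card + 1 : ℕ) : ℚ) + 1) = ((s.card : ℚ) + 1) / (s.card + 2) * (1 / (s.card + 1)) := by
          push_cast
          field_simp
          ring
      _ ≤ _ := mul_le_mul h1 ih' (by positivity) (le_trans (by positivity) h1)

lemma two_pow_card_primeFactors_le (n : ℕ) (hn : 0 < n) : 2 ^ n.primeFactors.card ≤ n := by
  calc 2 ^ n.primeFactors.card ≤ ∏ p ∈ n.primeFactors, p := by
        apply Finset.pow_card_le_prod
        intro p hp
        exact (Nat.prime_of_mem_primeFactors hp).two_le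
    _ ≤ n := Nat.le_of_dvd hn (Nat.prod_primeFactors_dvd n)

lemma card_primeFactors_le (n L : ℕ) (hn : 0 < n) (h : n ≤ 2 ^ L) : n.primeFactors.card ≤ L := by
  have := two_pow_card_primeFactors_le n hn
  exact (Nat.pow_le_pow_iff_right (by norm_num)).mp (this.trans h)

lemma totient_lower (n L : ℕ) (hn : 0 < n) (h : n ≤ 2 ^ L) :
    (n : ℝ) ≤ (Nat.totient n : ℝ) * (L + 1) := by
  have h1 := Nat.totient_eq_mul_prod_factors n
  have h2 := prod_one_sub_inv_ge n.primeFactors (fun p hp => (Nat.prime_of_mem_primeFactors hp).two_le)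
  have h3 := card_primeFactors_le n L hn h
  have h4 : (1 : ℚ) / (L + 1) ≤ ∏ k ∈ n.primeFactors, (1 - (k : ℚ)⁻¹) := by
    refine le_trans ?_ h2
    apply one_div_le_one_div_of_le (by positivity)
    have : (n.primeFactors.card : ℚ) ≤ L := by exact_mod_cast h3
    linarith
  have h5 : (n : ℚ) ≤ (Nat.totient n : ℚ) * (L + 1) := by
    rw [h1]
    have : (n : ℚ) = n * (1 / (L + 1)) * (L + 1) := by field_simp
    calc (n : ℚ) = n * (1 / (L + 1)) * (L + 1) := this
      _ ≤ _ := by gcongr
  exact_mod_cast h5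

lemma quarter_two : (2 : ℝ) ^ (-(1/4) : ℝ) ≤ 6 / 7 := by
  have h1 : ((2 : ℝ) ^ (-(1/4) : ℝ)) ^ 4 = 1 / 2 := by
    rw [← Real.rpow_natCast, ← Real.rpow_mul (by norm_num)]
    norm_num
  by_contra h
  push Not at h
  have : (6 / 7 : ℝ) ^ 4 < ((2 : ℝ) ^ (-(1/4) : ℝ)) ^ 4 := by gcongr
  rw [h1] at this
  norm_num at this

/-- completely multiplicative weight `n ↦ n^(-1/4)` -/
noncomputable def wt : ℕ →* ℝ where
  toFun n := (n : ℝ) ^ (-(1/4) : ℝ)
  map_one' := by simp
  map_mul' a b := by
    push_cast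
    exact Real.mul_rpow (Nat.cast_nonneg a) (Nat.cast_nonneg b)

lemma wt_apply (n : ℕ) : wt n = (n : ℝ) ^ (-(1/4) : ℝ) := rfl

lemma wt_nonneg (n : ℕ) : 0 ≤ wt n := by rw [wt_apply]; positivity

lemma wt_le_of_le {a b : ℕ} (ha : 0 < a) (h : a ≤ b) : wt b ≤ wt a := by
  rw [wt_apply, wt_apply]
  apply Real.rpow_le_rpow_of_nonpos (by exact_mod_cast ha) (by exact_mod_cast h)
  norm_num

lemma wt_prime_le (p : ℕ) (hp : 2 ≤ p) : wt p ≤ 6 / 7 := by
  refine (wt_le_of_le (by norm_num) hp).trans ?_
  rw [wt_apply]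
  exact_mod_cast quarter_two

lemma sum_divisors_wt_le (F : ℕ) :
    ∑ e ∈ F.divisors, wt e ≤ ∏ p ∈ F.primeFactors, (1 - wt p)⁻¹ := by
  have hnorm : ∀ {p : ℕ}, p.Prime → ‖wt p‖ < 1 := by
    intro p hp
    rw [Real.norm_of_nonneg (wt_nonneg p)]
    exact lt_of_le_of_lt (wt_prime_le p hp.two_le) (by norm_num)
  have h := EulerProduct.summable_and_hasSum_factoredNumbers_prod_filter_prime_geometric hnorm F.primeFactors
  have h2 : (F.primeFactors.filter (fun p => p.Prime)) = F.primeFactors := by
    apply filter_true_of_mem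
    intro p hp
    exact Nat.prime_of_mem_primeFactors hp
  rw [h2] at h
  rw [← h.2.tsum_eq]
  have hmem : ∀ e ∈ F.divisors, e ∈ Nat.factoredNumbers F.primeFactors := by
    intro e he
    have he' := Nat.mem_divisors.mp he
    rw [Nat.mem_factoredNumbers_iff_primeFactors_subset]
    exact ⟨(Nat.pos_of_mem_divisors he).ne', Nat.primeFactors_mono he'.1 he'.2⟩
  let t : Finset (Nat.factoredNumbers F.primeFactors) :=
    F.divisors.attach.image (fun e => ⟨e.1, hmem e.1 e.2⟩)
  have h3 : ∑ e ∈ F.divisors, wt e = ∑ x ∈ t, wt x := by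
    rw [sum_image]
    · rw [sum_attach F.divisors (fun e => wt e)]
    · intro a _ b _ hab
      simp only [Subtype.mk.injEq] at hab
      exact Subtype.ext hab
  rw [h3]
  exact h.2.summable.sum_le_tsum t fun _ _ => wt_nonneg _

lemma prod_wt_le (F Λ Y : ℕ) (hF : 0 < F) (hF2 : F ≤ 2 ^ Λ) (hY : 16 ≤ Y) :
    ∏ p ∈ F.primeFactors, (1 - wt p)⁻¹ ≤ 7 ^ Y * Real.exp (2 * Λ * wt Y) := by
  have hY0 : wt Y ≤ 1 / 2 := by
    refine (wt_le_of_le (by norm_num) hY).trans ?_
    rw [wt_apply]
    have : ((16 : ℕ) : ℝ) = (2 : ℝ) ^ (4 : ℝ) := by norm_num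
    rw [this, ← Real.rpow_mul (by norm_num)]
    norm_num
  rw [← prod_filter_mul_prod_filter_not F.primeFactors (fun p => p ≤ Y)]
  have h1 : ∏ p ∈ F.primeFactors.filter (fun p => p ≤ Y), (1 - wt p)⁻¹ ≤ 7 ^ Y := by
    calc ∏ p ∈ F.primeFactors.filter (fun p => p ≤ Y), (1 - wt p)⁻¹
        ≤ ∏ p ∈ F.primeFactors.filter (fun p => p ≤ Y), (7 : ℝ) := by
          apply prod_le_prod
          · intro p hp
            have := wt_prime_le p (Nat.prime_of_mem_primeFactors (mem_filter.mp hp).1).two_le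
            have h2 : 0 < 1 - wt p := by linarith
            positivity
          · intro p hp
            have := wt_prime_le p (Nat.prime_of_mem_primeFactors (mem_filter.mp hp).1).two_le
            rw [inv_le_comm₀ (by linarith) (by norm_num)]
            linarith
      _ = 7 ^ (F.primeFactors.filter (fun p => p ≤ Y)).card := by rw [prod_const]
      _ ≤ 7 ^ Y := by
          apply pow_le_pow_right₀ (by norm_num)
          have : F.primeFactors.filter (fun p => p ≤ Y) ⊆ Icc 1 Y := by
            intro p hp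
            rw [mem_Icc]
            exact ⟨(Nat.prime_of_mem_primeFactors (mem_filter.mp hp).1).one_le, (mem_filter.mp hp).2⟩
          have := card_le_card this
          simpa using this
  have h2 : ∏ p ∈ F.primeFactors.filter (fun p => ¬ p ≤ Y), (1 - wt p)⁻¹ ≤ Real.exp (2 * Λ * wt Y) := by
    calc ∏ p ∈ F.primeFactors.filter (fun p => ¬ p ≤ Y), (1 - wt p)⁻¹
        ≤ ∏ p ∈ F.primeFactors.filter (fun p => ¬ p ≤ Y), Real.exp (2 * wt Y) := by
          apply prod_le_prod
          · intro p hp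
            have := wt_prime_le p (Nat.prime_of_mem_primeFactors (mem_filter.mp hp).1).two_le
            have h2 : 0 < 1 - wt p := by linarith
            positivity
          · intro p hp
            have hpY := (mem_filter.mp hp).2
            push Not at hpY
            have h3 : wt p ≤ wt Y := wt_le_of_le (by omega) hpY.le
            have h4 : 0 ≤ wt p := wt_nonneg p
            have h5 : (1 - wt p)⁻¹ ≤ 1 + 2 * wt p := by
              rw [inv_le_iff_one_le_mul₀ (by linarith)]
              nlinarith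
            have h6 : 1 + 2 * wt p ≤ Real.exp (2 * wt p) := by
              have := Real.add_one_le_exp (2 * wt p)
              linarith
            have h7 : Real.exp (2 * wt p) ≤ Real.exp (2 * wt Y) := by
              apply Real.exp_le_exp.mpr; linarith
            linarith
      _ = Real.exp (2 * wt Y) ^ (F.primeFactors.filter (fun p => ¬ p ≤ Y)).card := by rw [prod_const]
      _ ≤ Real.exp (2 * wt Y) ^ Λ := by
          apply pow_le_pow_right₀
          · apply Real.one_le_exp
            have := wt_nonneg Y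
            linarith
          · exact (card_filter_le _ _).trans (card_primeFactors_le F Λ hF hF2)
      _ = Real.exp (2 * Λ * wt Y) := by
          rw [← Real.exp_nat_mul]
          congr 1
          ring
  apply mul_le_mul h1 h2 _ (by positivity)
  apply prod_nonneg
  intro p hp
  have := wt_prime_le p (Nat.prime_of_mem_primeFactors (mem_filter.mp hp).1).two_le
  have h2 : 0 < 1 - wt p := by linarith
  positivity

/-- Rankin type bound for the divisors of `F` exceeding `T`. -/
lemma rankin (F Λ Y : ℕ) (T : ℝ) (hT : 0 < T) (hF : 0 < F) (hF2 : F ≤ 2 ^ Λ) (hY : 16 ≤ Y) :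
    ∑ e ∈ F.divisors.filter (fun e : ℕ => T < e), (e : ℝ) ^ (-(3/8) : ℝ)
      ≤ T ^ (-(1/8) : ℝ) * (7 ^ Y * Real.exp (2 * Λ * wt Y)) := by
  calc ∑ e ∈ F.divisors.filter (fun e : ℕ => T < e), (e : ℝ) ^ (-(3/8) : ℝ)
      ≤ ∑ e ∈ F.divisors.filter (fun e : ℕ => T < e), T ^ (-(1/8) : ℝ) * wt e := by
        apply sum_le_sum
        intro e he
        have heT := (mem_filter.mp he).2
        have he0 : (0 : ℝ) < e := hT.trans heT
        rw [wt_apply]
        have h1 : (e : ℝ) ^ (-(3/8) : ℝ) = (e : ℝ) ^ (-(1/8) : ℝ) * (e : ℝ) ^ (-(1/4) : ℝ) := by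
          rw [← Real.rpow_add he0]
          norm_num
        rw [h1]
        apply mul_le_mul_of_nonneg_right _ (by positivity)
        exact Real.rpow_le_rpow_of_nonpos hT heT.le (by norm_num)
    _ = T ^ (-(1/8) : ℝ) * ∑ e ∈ F.divisors.filter (fun e : ℕ => T < e), wt e := by rw [mul_sum]
    _ ≤ T ^ (-(1/8) : ℝ) * ∑ e ∈ F.divisors, wt e := by
        apply mul_le_mul_of_nonneg_left _ (by positivity)
        apply sum_le_sum_of_subset_of_nonneg (filter_subset _ _)
        intro i _ _
        exact wt_nonneg i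
    _ ≤ _ := by
        apply mul_le_mul_of_nonneg_left _ (by positivity)
        exact (sum_divisors_wt_le F).trans (prod_wt_le F Λ Y hF hF2 hY)

end Vale.Agent.P012
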