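import Mathlib
import Vale.Agent.P012.Rankin

open Finset

namespace Vale.Agent.P012

lemma pi_lower (h : ℕ) (hh : 3 ≤ h) : 2 ^ h ≤ 2 * h * (Nat.primesLE (2 ^ h)).card := by
  have h1 := Chebyshev.pi_ge (2 ^ h)
  have hlog2 : 0 < Real.log 2 := Real.log_pos (by norm_num)
  have hh' : (0 : ℝ) < h := by positivity
  have h2 : Real.log ((2 ^ h : ℕ) : ℝ) = h * Real.log 2 := by
    push_cast
    rw [Real.log_pow]
  have h3 : Real.log (((2 ^ h : ℕ) : ℝ) + 1) ≤ (h + 1) * Real.log 2 := by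
    have : (((2 ^ h : ℕ) : ℝ) + 1) ≤ (2 : ℝ) ^ (h + 1) := by
      push_cast
      have : (1 : ℝ) ≤ 2 ^ h := one_le_pow₀ (by norm_num)
      rw [pow_succ]
      linarith
    calc Real.log (((2 ^ h : ℕ) : ℝ) + 1) ≤ Real.log ((2 : ℝ) ^ (h + 1)) :=
          Real.log_le_log (by positivity) this
      _ = _ := by rw [Real.log_pow]; push_cast; ring
  rw [h2, div_le_iff₀ (by positivity)] at h1
  have h4 : (Nat.primesLE (2 ^ h)).card = Nat.primeCounting (2 ^ h) := by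
    simp
  rw [h4]
  have h5 : ((2 ^ h : ℕ) : ℝ) - (h + 1) ≤ h * (Nat.primeCounting (2 ^ h) : ℝ) := by
    have : (((2 ^ h : ℕ) : ℝ) - (h + 1)) * Real.log 2 ≤ (h * (Nat.primeCounting (2 ^ h) : ℝ)) * Real.log 2 := by
      calc (((2 ^ h : ℕ) : ℝ) - (h + 1)) * Real.log 2
          = ((2 ^ h : ℕ) : ℝ) * Real.log 2 - (h + 1) * Real.log 2 := by ring
        _ ≤ ((2 ^ h : ℕ) : ℝ) * Real.log 2 - Real.log (((2 ^ h : ℕ) : ℝ) + 1) := by linarith
        _ ≤ _ := h1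
        _ = _ := by ring
    exact le_of_mul_le_mul_right this hlog2
  have h6 : ((2 ^ h : ℕ) : ℝ) ≤ h * (Nat.primeCounting (2 ^ h) : ℝ) + (h + 1) := by linarith
  have h7 : 2 ^ h ≤ h * Nat.primeCounting (2 ^ h) + (h + 1) := by exact_mod_cast h6
  have h8 : 2 * h + 2 ≤ 2 ^ h := by
    clear h1 h2 h3 h4 h5 h6 h7 hh'
    induction h, hh using Nat.le_induction with
    | base => norm_num
    | succ h hh ih => rw [pow_succ]; omega
  have h9 : 2 * h * Nat.primeCounting (2 ^ h) = 2 * (h * Nat.primeCounting (2 ^ h)) := by ring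
  rw [h9]
  omega

lemma card_primesLE_le (P : ℕ) : (Nat.primesLE P).card ≤ P := by
  rw [Nat.primesLE_eq_filter_Icc_one]
  exact (card_filter_le _ _).trans (by simp)

lemma rk_bound (θ q r : ℕ) (T : ℝ) (hT : T = 2 ^ (16 * θ))
    (h : 3 * 2 ^ (60 * q) + 3 * 2 ^ (50 * q + r + 20) ≤ θ) :
    T ^ (-(1/8) : ℝ) * (7 ^ (2 ^ (60 * q)) * Real.exp (2 * ((2 ^ (65 * q + r + 20) : ℕ) : ℝ) * wt (2 ^ (60 * q))))
      ≤ (1 / 2) ^ θ := by
  have h1 : T ^ (-(1/8) : ℝ) = (1 / 2) ^ (2 * θ) := by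
    rw [hT, ← Real.rpow_natCast, ← Real.rpow_mul (by norm_num)]
    have : ((16 * θ : ℕ) : ℝ) * (-(1/8) : ℝ) = -((2 * θ : ℕ) : ℝ) := by
      push_cast; ring
    rw [this, Real.rpow_neg (by norm_num), Real.rpow_natCast, one_div, inv_pow]
  have h2 : wt (2 ^ (60 * q)) = (1 / 2) ^ (15 * q) := by
    rw [wt_apply]
    push_cast
    rw [← Real.rpow_natCast, ← Real.rpow_mul (by norm_num)]
    have : ((60 * q : ℕ) : ℝ) * (-(1/4) : ℝ) = -((15 * q : ℕ) : ℝ) := by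
      push_cast; ring
    rw [this, Real.rpow_neg (by norm_num), Real.rpow_natCast, one_div, inv_pow]
  have h3 : 2 * ((2 ^ (65 * q + r + 20) : ℕ) : ℝ) * wt (2 ^ (60 * q)) = ((2 ^ (50 * q + r + 20) : ℕ) : ℝ) * 2 := by
    rw [h2]
    push_cast
    have : 65 * q + r + 20 = (50 * q + r + 20) + 15 * q := by ring
    rw [this, pow_add 2 (50 * q + r + 20) (15 * q), one_div, inv_pow]
    field_simp
  have h4 : Real.exp (2 * ((2 ^ (65 * q + r + 20) : ℕ) : ℝ) * wt (2 ^ (60 * q))) ≤ 2 ^ (3 * 2 ^ (50 * q + r + 20)) := by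
    rw [h3, Real.exp_nat_mul, pow_mul (2 : ℝ) 3 (2 ^ (50 * q + r + 20))]
    apply pow_le_pow_left₀ (Real.exp_pos _).le
    have e1 := Real.exp_one_lt_d9
    have e2 : Real.exp 2 = Real.exp 1 * Real.exp 1 := by rw [← Real.exp_add]; norm_num
    rw [e2]
    have e3 := Real.exp_pos 1
    nlinarith
  have h5 : (7 : ℝ) ^ (2 ^ (60 * q)) ≤ 2 ^ (3 * 2 ^ (60 * q)) := by
    rw [pow_mul (2 : ℝ) 3 (2 ^ (60 * q))]
    apply pow_le_pow_left₀ (by norm_num)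
    norm_num
  rw [h1]
  have h6 : (7 : ℝ) ^ (2 ^ (60 * q)) * Real.exp (2 * ((2 ^ (65 * q + r + 20) : ℕ) : ℝ) * wt (2 ^ (60 * q)))
      ≤ 2 ^ θ := by
    calc _ ≤ (2 : ℝ) ^ (3 * 2 ^ (60 * q)) * 2 ^ (3 * 2 ^ (50 * q + r + 20)) :=
          mul_le_mul h5 h4 (Real.exp_pos _).le (by positivity)
      _ = 2 ^ (3 * 2 ^ (60 * q) + 3 * 2 ^ (50 * q + r + 20)) := by rw [← pow_add]
      _ ≤ 2 ^ θ := pow_le_pow_right₀ (by norm_num) h
  calc (1 / 2 : ℝ) ^ (2 * θ) * _ ≤ (1 / 2) ^ (2 * θ) * 2 ^ θ := mul_le_mul_of_nonneg_left h6 (by positivity)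
    _ = (1 / 2) ^ θ := by
      have : 2 * θ = θ + θ := by ring
      rw [this, pow_add, mul_assoc, ← mul_pow]
      norm_num

lemma num_bad (θ P : ℕ) (M Om V T Rk : ℝ) (hM0 : 0 ≤ M) (hM : M ≤ 2 ^ (20 * P)) (hOm : 2 ^ (32 * P) ≤ Om)
    (hV : V = 2 ^ (16 * P)) (hT : T = 2 ^ (16 * θ)) (hRk : Rk ≤ (1 / 2) ^ θ) (hθP : θ ≤ P)
    (hP : 2 ^ 11 * P < 2 ^ θ) (hP1 : 1 ≤ P) :
    (4 * (M / Om + Rk) + 3 * (T ^ (-(1/4) : ℝ) + M ^ ((3/4) : ℝ) / V)) * (4 * (20 * P + 1)) < 1 := by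
  set x : ℝ := (1 / 2) ^ θ with hx
  have hx0 : 0 < x := by positivity
  have hxP : ∀ k, θ ≤ k → (1 / 2 : ℝ) ^ k ≤ x := by
    intro k hk
    exact pow_le_pow_of_le_one (by norm_num) (by norm_num) hk
  have h1 : M / Om ≤ x := by
    have hOm0 : 0 < Om := lt_of_lt_of_le (by positivity) hOm
    calc M / Om ≤ 2 ^ (20 * P) / 2 ^ (32 * P) := by gcongr
      _ = (1 / 2) ^ (12 * P) := by
        have : 32 * P = 20 * P + 12 * P := by ring
        rw [this, pow_add, one_div, inv_pow]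
        field_simp
      _ ≤ x := hxP _ (by omega)
  have h2 : T ^ (-(1/4) : ℝ) ≤ x := by
    have : T ^ (-(1/4) : ℝ) = (1 / 2) ^ (4 * θ) := by
      rw [hT, ← Real.rpow_natCast, ← Real.rpow_mul (by norm_num)]
      have : ((16 * θ : ℕ) : ℝ) * (-(1/4) : ℝ) = -((4 * θ : ℕ) : ℝ) := by
        push_cast; ring
      rw [this, Real.rpow_neg (by norm_num), Real.rpow_natCast, one_div, inv_pow]
    rw [this]
    exact hxP _ (by omega)
  have h3 : M ^ ((3/4) : ℝ) / V ≤ x := by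
    have e1 : M ^ ((3/4) : ℝ) ≤ 2 ^ (15 * P) := by
      calc M ^ ((3/4) : ℝ) ≤ ((2 : ℝ) ^ (20 * P)) ^ ((3/4) : ℝ) := Real.rpow_le_rpow hM0 hM (by norm_num)
        _ = 2 ^ (15 * P) := by
          rw [← Real.rpow_natCast, ← Real.rpow_mul (by norm_num), ← Real.rpow_natCast]
          congr 1
          push_cast; ring
    rw [hV]
    calc M ^ ((3/4) : ℝ) / 2 ^ (16 * P) ≤ 2 ^ (15 * P) / 2 ^ (16 * P) := by gcongr
      _ = (1 / 2) ^ P := by
        have : 16 * P = 15 * P + P := by ring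
        rw [this, pow_add, one_div, inv_pow]
        field_simp
      _ ≤ x := hxP _ hθP
  have h4 : 4 * (M / Om + Rk) + 3 * (T ^ (-(1/4) : ℝ) + M ^ ((3/4) : ℝ) / V) ≤ 14 * x := by linarith
  have hP' : (1 : ℝ) ≤ P := by exact_mod_cast hP1
  have h5 : 4 * (20 * (P : ℝ) + 1) ≤ 84 * P := by linarith
  have h6 : x * (2 ^ 11 * P) < 1 := by
    rw [hx, one_div, inv_pow, inv_mul_lt_iff₀ (by positivity), mul_one]
    exact_mod_cast hP
  calc (4 * (M / Om + Rk) + 3 * (T ^ (-(1/4) : ℝ) + M ^ ((3/4) : ℝ) / V)) * (4 * (20 * P + 1))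
      ≤ (14 * x) * (84 * P) := by
        apply mul_le_mul h4 h5 (by positivity) (by positivity)
    _ ≤ x * (2 ^ 11 * P) := by
        have : 0 ≤ x * P := by positivity
        nlinarith
    _ < 1 := h6

end Vale.Agent.P012
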