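import Mathlib

open Finset

namespace Vale.Agent.P012

/-- additive character on the reals -/
noncomputable def ee (x : ℝ) : ℂ := Complex.exp ((2 * Real.pi * x : ℝ) * Complex.I)

lemma ee_add (x y : ℝ) : ee (x + y) = ee x * ee y := by
  unfold ee
  rw [← Complex.exp_add]
  congr 1
  push_cast
  ring

lemma ee_zero : ee 0 = 1 := by simp [ee]

lemma ee_int (n : ℤ) : ee n = 1 := by
  unfold ee
  rw [Complex.exp_eq_one_iff]
  exact ⟨n, by push_cast; ring⟩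

lemma ee_nat (n : ℕ) : ee n = 1 := by
  have := ee_int n
  simpa using this

lemma norm_ee (x : ℝ) : ‖ee x‖ = 1 := by
  unfold ee
  exact Complex.norm_exp_ofReal_mul_I _

lemma conj_ee (x : ℝ) : (starRingEnd ℂ) (ee x) = ee (-x) := by
  unfold ee
  rw [← Complex.exp_conj]
  congr 1
  rw [map_mul, Complex.conj_ofReal, Complex.conj_I]
  push_cast
  ring

lemma ee_sum {ι : Type*} (s : Finset ι) (f : ι → ℝ) : ee (∑ i ∈ s, f i) = ∏ i ∈ s, ee (f i) := by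
  classical
  induction s using Finset.induction_on with
  | empty => simp [ee_zero]
  | insert a s ha ih => rw [sum_insert ha, prod_insert ha, ee_add, ih]

lemma ee_mul_nat (x : ℝ) (n : ℕ) : ee (x * n) = ee x ^ n := by
  unfold ee
  rw [← Complex.exp_nat_mul]
  congr 1
  push_cast
  ring

lemma sum_ee (m : ℕ) (hm : 0 < m) (k : ℤ) :
    ∑ u ∈ range m, ee (k * (u / m)) = if (m : ℤ) ∣ k then (m : ℂ) else 0 := by
  have hm' : (m : ℝ) ≠ 0 := by positivity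
  split_ifs with h
  · obtain ⟨c, rfl⟩ := h
    have : ∀ u ∈ range m, ee (((m : ℤ) * c : ℤ) * ((u : ℝ) / m)) = 1 := by
      intro u _
      have : ((((m : ℤ) * c : ℤ) : ℝ) * ((u : ℝ) / m)) = ((c * u : ℤ) : ℝ) := by
        push_cast
        field_simp
      rw [this, ee_int]
    rw [sum_congr rfl this]
    simp
  · have h1 : ∀ u ∈ range m, ee ((k : ℝ) * ((u : ℝ) / m)) = (ee (k / m)) ^ u := by
      intro u _
      rw [← ee_mul_nat]
      congr 1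
      ring
    rw [sum_congr rfl h1]
    have h2 : ee (k / m) ≠ 1 := by
      intro h3
      unfold ee at h3
      rw [Complex.exp_eq_one_iff] at h3
      obtain ⟨n, hn⟩ := h3
      apply h
      refine ⟨n, ?_⟩
      have hpi : (2 * Real.pi * Complex.I : ℂ) ≠ 0 := by
        simp [Real.pi_ne_zero]
      have h4 : ((k : ℂ) / m) * (2 * Real.pi * Complex.I) = n * (2 * Real.pi * Complex.I) := by
        rw [← hn]
        push_cast
        ring
      have h5 := mul_right_cancel₀ hpi h4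
      have hm'' : (m : ℂ) ≠ 0 := by exact_mod_cast hm.ne'
      rw [div_eq_iff hm''] at h5
      have h6 : (k : ℂ) = ((m * n : ℤ) : ℂ) := by
        rw [h5]; push_cast; ring
      exact_mod_cast h6
    have h3 : (∑ u ∈ range m, (ee (k / m)) ^ u) * (ee (k / m) - 1) = (ee (k / m)) ^ m - 1 :=
      geom_sum_mul _ _
    have h4 : (ee (k / m)) ^ m = 1 := by
      rw [← ee_mul_nat]
      rw [div_mul_cancel₀ _ hm']
      exact ee_int k
    rw [h4, sub_self] at h3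
    rcases mul_eq_zero.mp h3 with h5 | h5
    · exact h5
    · exact absurd (sub_eq_zero.mp h5) h2

lemma count_eq {α : Type*} (Ω : Finset α) (X : α → ℕ) (m : ℕ) (hm : 0 < m) :
    ∑ u ∈ range m, ∑ ω ∈ Ω, ee (X ω * (u / m)) = (m : ℂ) * ((Ω.filter (fun ω => m ∣ X ω)).card : ℂ) := by
  rw [sum_comm]
  have : ∀ ω ∈ Ω, ∑ u ∈ range m, ee ((X ω : ℝ) * (u / m)) = if m ∣ X ω then (m : ℂ) else 0 := by
    intro ω _
    have := sum_ee m hm (X ω)
    simp only [Int.cast_natCast, Int.natCast_dvd_natCast] at this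
    exact this
  rw [sum_congr rfl this, ← sum_filter, sum_const, nsmul_eq_mul, mul_comm]

lemma count_lower {α : Type*} (Ω : Finset α) (X : α → ℕ) (m : ℕ) (hm : 0 < m)
    (H : ∑ u ∈ Ioo 0 m, ‖∑ ω ∈ Ω, ee (X ω * ((u : ℝ) / m))‖ ≤ (Ω.card : ℝ) / 2) :
    (Ω.card : ℝ) ≤ 2 * m * ((Ω.filter (fun ω => m ∣ X ω)).card : ℝ) := by
  have h1 := count_eq Ω X m hm
  have h2 : range m = insert 0 (Ioo 0 m) := by
    ext u
    simp only [mem_range, mem_insert, mem_Ioo]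
    omega
  rw [h2, sum_insert (by simp)] at h1
  have h3 : ∑ ω ∈ Ω, ee ((X ω : ℝ) * (((0 : ℕ) : ℝ) / m)) = (Ω.card : ℂ) := by
    simp [ee_zero]
  rw [h3] at h1
  have h4 : (Ω.card : ℂ) = (m : ℂ) * ((Ω.filter (fun ω => m ∣ X ω)).card : ℂ)
      - ∑ u ∈ Ioo 0 m, ∑ ω ∈ Ω, ee ((X ω : ℝ) * ((u : ℝ) / m)) := by
    rw [← h1]; ring
  have h5 : (Ω.card : ℝ) ≤ (m : ℝ) * ((Ω.filter (fun ω => m ∣ X ω)).card : ℝ)
      + ∑ u ∈ Ioo 0 m, ‖∑ ω ∈ Ω, ee ((X ω : ℝ) * ((u : ℝ) / m))‖ := by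
    have h6 : ‖(Ω.card : ℂ)‖ = (Ω.card : ℝ) := by simp
    rw [← h6, h4]
    refine (norm_sub_le _ _).trans ?_
    refine add_le_add ?_ (norm_sum_le _ _)
    simp
  linarith

lemma sum_norm_sq {α : Type*} (Ω : Finset α) (Z : α → ℕ) (e : ℕ) (he : 0 < e) :
    ∑ w ∈ range e, ‖∑ ω ∈ Ω, ee (Z ω * ((w : ℝ) / e))‖ ^ 2
      = e * (((Ω ×ˢ Ω).filter (fun p => Z p.1 ≡ Z p.2 [MOD e])).card : ℝ) := by
  have h1 : ∀ w ∈ range e, ((‖∑ ω ∈ Ω, ee (Z ω * ((w : ℝ) / e))‖ ^ 2 : ℝ) : ℂ)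
      = ∑ p ∈ Ω ×ˢ Ω, ee ((((Z p.1 : ℤ) - (Z p.2 : ℤ) : ℤ) : ℝ) * ((w : ℝ) / e)) := by
    intro w _
    rw [sum_product]
    have : ((‖∑ ω ∈ Ω, ee (Z ω * ((w : ℝ) / e))‖ ^ 2 : ℝ) : ℂ)
      = (∑ ω ∈ Ω, ee (Z ω * ((w : ℝ) / e))) * (starRingEnd ℂ) (∑ ω ∈ Ω, ee (Z ω * ((w : ℝ) / e))) := by
      rw [Complex.mul_conj, Complex.normSq_eq_norm_sq]
    rw [this, map_sum, sum_mul_sum]
    refine sum_congr rfl fun a _ => sum_congr rfl fun b _ => ?_
    rw [conj_ee, ← ee_add]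
    congr 1
    push_cast
    ring
  have h2 : ((∑ w ∈ range e, ‖∑ ω ∈ Ω, ee (Z ω * ((w : ℝ) / e))‖ ^ 2 : ℝ) : ℂ)
      = ((e * (((Ω ×ˢ Ω).filter (fun p => Z p.1 ≡ Z p.2 [MOD e])).card : ℝ) : ℝ) : ℂ) := by
    rw [Complex.ofReal_sum, sum_congr rfl h1, sum_comm]
    have h3 : ∀ p ∈ Ω ×ˢ Ω, ∑ w ∈ range e, ee ((((Z p.1 : ℤ) - (Z p.2 : ℤ) : ℤ) : ℝ) * ((w : ℝ) / e))
        = if Z p.1 ≡ Z p.2 [MOD e] then (e : ℂ) else 0 := by
      intro p _
      rw [sum_ee e he]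
      have : ((e : ℤ) ∣ (Z p.1 : ℤ) - (Z p.2 : ℤ)) ↔ Z p.1 ≡ Z p.2 [MOD e] := by
        rw [Nat.ModEq.comm, Nat.modEq_iff_dvd]
      simp only [this]
    rw [sum_congr rfl h3, ← sum_filter, sum_const, nsmul_eq_mul]
    push_cast
    ring
  exact_mod_cast h2

/-- exponential sum over a finite set of naturals -/
noncomputable def F (D : Finset ℕ) (t : ℝ) : ℂ := ∑ g ∈ D, ee (g * t)

/-- normalised absolute value of the exponential sum -/
noncomputable def qq (D : Finset ℕ) (t : ℝ) : ℝ := ‖F D t‖ / D.card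

lemma qq_nonneg (D : Finset ℕ) (t : ℝ) : 0 ≤ qq D t := by
  unfold qq; positivity

lemma qq_le_one (D : Finset ℕ) (t : ℝ) : qq D t ≤ 1 := by
  unfold qq
  apply div_le_one_of_le₀ _ (by positivity)
  unfold F
  refine (norm_sum_le _ _).trans ?_
  simp [norm_ee]

lemma F_add_int (D : Finset ℕ) (t : ℝ) (n : ℤ) : F D (t + n) = F D t := by
  unfold F
  refine sum_congr rfl fun g _ => ?_
  rw [mul_add, ee_add]
  have : ee ((g : ℝ) * n) = 1 := by
    have := ee_int (g * n)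
    push_cast at this
    exact this
  rw [this, mul_one]

lemma qq_add_int (D : Finset ℕ) (t : ℝ) (n : ℤ) : qq D (t + n) = qq D t := by
  unfold qq; rw [F_add_int]

lemma prod_F {ι : Type*} [Fintype ι] [DecidableEq ι] (D : Finset ℕ) (w : ι → ℕ) (t : ℝ) :
    ∑ ω ∈ Fintype.piFinset (fun _ : ι => D), ee (((∑ i, w i * ω i : ℕ) : ℝ) * t)
      = ∏ i, F D (w i * t) := by
  unfold F
  rw [Finset.prod_univ_sum]
  refine sum_congr rfl fun ω _ => ?_
  rw [← ee_sum]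
  congr 1
  push_cast
  rw [sum_mul]
  refine sum_congr rfl fun i _ => ?_
  ring

lemma norm_prod_F {ι : Type*} [Fintype ι] [DecidableEq ι] (D : Finset ℕ) (hD : D.Nonempty)
    (w : ι → ℕ) (t : ℝ) :
    ‖∑ ω ∈ Fintype.piFinset (fun _ : ι => D), ee (((∑ i, w i * ω i : ℕ) : ℝ) * t)‖
      = ((Fintype.piFinset (fun _ : ι => D)).card : ℝ) * ∏ i, qq D (w i * t) := by
  rw [prod_F, norm_prod]
  unfold qq
  rw [prod_div_distrib]
  have hc : (D.card : ℝ) ≠ 0 := by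
    have := hD.card_pos
    positivity
  rw [Fintype.card_piFinset]
  push_cast
  rw [mul_div_cancel₀]
  exact prod_ne_zero_iff.mpr fun _ _ => hc

end Vale.Agent.P012
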