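import Mathlib

open Finset

namespace Vale.Agent.P012

lemma sum_perm_le (e : ℕ) (he : 0 < e) (u : ℕ) (hu : u.Coprime e) (g : ℕ → ℝ)
    (hg : ∀ n, 0 ≤ g n) (hper : ∀ n, g (n % e) = g n) :
    ∑ r ∈ range e, g (r * u) ≤ ∑ w ∈ range e, g w := by
  have h1 : ∑ r ∈ range e, g (r * u) = ∑ w ∈ (range e).image (fun r => (r * u) % e), g w := by
    rw [sum_image]
    · refine sum_congr rfl fun r _ => (hper _).symm
    · intro r hr r' hr' h
      have h2 : r * u ≡ r' * u [MOD e] := h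
      have h3 : r ≡ r' [MOD e] := Nat.ModEq.cancel_right_of_coprime (by rwa [Nat.coprime_comm] at hu) h2
      have hr1 := mem_range.mp hr
      have hr2 := mem_range.mp hr'
      exact Nat.ModEq.eq_of_lt_of_lt h3 hr1 hr2
  rw [h1]
  refine sum_le_sum_of_subset_of_nonneg ?_ fun _ _ _ => hg _
  intro w hw
  obtain ⟨r, _, rfl⟩ := mem_image.mp hw
  exact mem_range.mpr (Nat.mod_lt _ he)

lemma card_modEq_le (e : ℕ) (he : 0 < e) (a L r : ℕ) :
    (((Ioc a (a + L)).filter (fun x => x ≡ r [MOD e])).card : ℝ) ≤ (L : ℝ) / e + 1 := by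
  have h := Nat.Ioc_filter_modEq_card a (a + L) he r
  have h2 : (((Ioc a (a + L)).filter (fun x => x ≡ r [MOD e])).card : ℤ) ≤
      max (⌊(((a + L : ℕ) : ℚ) - r) / (e : ℚ)⌋ - ⌊((a : ℚ) - r) / (e : ℚ)⌋) 0 := by
    rw [← h]
  have he' : (0 : ℚ) < e := by exact_mod_cast he
  have h3 : ((max (⌊(((a + L : ℕ) : ℚ) - r) / (e : ℚ)⌋ - ⌊((a : ℚ) - r) / (e : ℚ)⌋) 0 : ℤ) : ℚ)
      ≤ (L : ℚ) / e + 1 := by
    rw [Int.cast_max]
    refine max_le ?_ (by push_cast; positivity)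
    push_cast
    have h4 := Int.floor_le ((((a + L : ℕ) : ℚ) - r) / (e : ℚ))
    have h5 := Int.sub_one_lt_floor (((a : ℚ) - r) / (e : ℚ))
    have h6 : (((a + L : ℕ) : ℚ) - r) / (e : ℚ) = ((a : ℚ) - r) / (e : ℚ) + (L : ℚ) / e := by
      push_cast
      field_simp
      ring
    rw [h6] at h4
    have h7 : (((a : ℚ) + L) - r) / (e : ℚ) = ((a : ℚ) - r) / (e : ℚ) + (L : ℚ) / e := by
      field_simp
      ring
    rw [h7]
    linarith
  have h8 : (((Ioc a (a + L)).filter (fun x => x ≡ r [MOD e])).card : ℚ) ≤ (L : ℚ) / e + 1 := by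
    refine le_trans ?_ h3
    exact_mod_cast h2
  have h9 : ((((Ioc a (a + L)).filter (fun x => x ≡ r [MOD e])).card : ℚ) : ℝ)
      ≤ (((L : ℚ) / e + 1 : ℚ) : ℝ) := by exact_mod_cast h8
  push_cast at h9
  exact h9

lemma sum_Ioc_le (e : ℕ) (he : 0 < e) (u : ℕ) (hu : u.Coprime e) (g : ℕ → ℝ)
    (hg : ∀ n, 0 ≤ g n) (hper : ∀ n, g (n % e) = g n) (a L : ℕ) :
    ∑ v ∈ Ioc a (a + L), g (v * u) ≤ ((L : ℝ) / e + 1) * ∑ w ∈ range e, g w := by
  have h1 : ∑ v ∈ Ioc a (a + L), g (v * u)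
      = ∑ r ∈ range e, ∑ v ∈ (Ioc a (a + L)).filter (fun v => v % e = r), g (v * u) := by
    rw [sum_fiberwise_of_maps_to]
    intro v _
    exact mem_range.mpr (Nat.mod_lt _ he)
  rw [h1]
  have h2 : ∀ r ∈ range e, ∑ v ∈ (Ioc a (a + L)).filter (fun v => v % e = r), g (v * u)
      ≤ ((L : ℝ) / e + 1) * g (r * u) := by
    intro r hr
    have hr' := mem_range.mp hr
    have h3 : ∀ v ∈ (Ioc a (a + L)).filter (fun v => v % e = r), g (v * u) = g (r * u) := by
      intro v hv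
      have hv' := (mem_filter.mp hv).2
      have h5 : (v * u) % e = (v % e * u) % e := (Nat.ModEq.mul_right u (Nat.mod_modEq v e)).symm
      rw [← hper (v * u), ← hper (r * u), h5, hv']
    rw [sum_congr rfl h3, sum_const, nsmul_eq_mul]
    refine mul_le_mul_of_nonneg_right ?_ (hg _)
    have h4 := card_modEq_le e he a L r
    refine le_trans ?_ h4
    have : (Ioc a (a + L)).filter (fun v => v % e = r) ⊆ (Ioc a (a + L)).filter (fun x => x ≡ r [MOD e]) := by
      intro v hv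
      rw [mem_filter] at hv ⊢
      refine ⟨hv.1, ?_⟩
      unfold Nat.ModEq
      rw [hv.2, Nat.mod_eq_of_lt hr']
    exact_mod_cast card_le_card this
  refine (sum_le_sum h2).trans ?_
  rw [← mul_sum]
  refine mul_le_mul_of_nonneg_left ?_ (by positivity)
  exact sum_perm_le e he u hu g hg hper

/-- splitting the fractions `u/m` by their reduced denominator -/
lemma sum_by_order (m : ℕ) (hm : 0 < m) (g : ℝ → ℝ) (hg : ∀ x, 0 ≤ g x) :
    ∑ u ∈ Ioo 0 m, g ((u : ℝ) / m)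
      ≤ ∑ e ∈ m.divisors.filter (fun e => 1 < e),
          ∑ u ∈ (range e).filter (fun u => u.Coprime e), g ((u : ℝ) / e) := by
  rw [sum_sigma']
  have h1 : ∑ u ∈ Ioo 0 m, g ((u : ℝ) / m)
      = ∑ x ∈ (Ioo 0 m).image (fun u => (⟨m / Nat.gcd u m, u / Nat.gcd u m⟩ : (_ : ℕ) × ℕ)),
          g ((x.2 : ℝ) / x.1) := by
    rw [sum_image]
    · refine sum_congr rfl fun u hu => ?_
      have hu' := mem_Ioo.mp hu
      have hg0 : 0 < Nat.gcd u m := Nat.gcd_pos_of_pos_right _ hm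
      congr 1
      simp only
      rw [Nat.cast_div (Nat.gcd_dvd_left _ _) (by positivity),
        Nat.cast_div (Nat.gcd_dvd_right _ _) (by positivity)]
      field_simp
    · intro u hu u' hu' h
      simp only [Sigma.mk.injEq, heq_eq_eq] at h
      obtain ⟨h2, h3⟩ := h
      have hg0 : 0 < Nat.gcd u m := Nat.gcd_pos_of_pos_right _ hm
      have hg1 : 0 < Nat.gcd u' m := Nat.gcd_pos_of_pos_right _ hm
      have h4 : Nat.gcd u m = Nat.gcd u' m := by
        have e1 := Nat.div_mul_cancel (Nat.gcd_dvd_right u m)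
        have e2 := Nat.div_mul_cancel (Nat.gcd_dvd_right u' m)
        have e3 : 0 < m / Nat.gcd u' m := Nat.div_pos (Nat.gcd_le_right _ hm) hg1
        rw [h2] at e1
        have e4 : m / Nat.gcd u' m * Nat.gcd u m = m / Nat.gcd u' m * Nat.gcd u' m := by
          rw [e1, e2]
        exact Nat.eq_of_mul_eq_mul_left e3 e4
      have e5 := Nat.div_mul_cancel (Nat.gcd_dvd_left u m)
      have e6 := Nat.div_mul_cancel (Nat.gcd_dvd_left u' m)
      rw [← e5, ← e6, h3, h4]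
  rw [h1]
  refine sum_le_sum_of_subset_of_nonneg ?_ fun _ _ _ => hg _
  intro x hx
  obtain ⟨u, hu, rfl⟩ := mem_image.mp hx
  have hu' := mem_Ioo.mp hu
  have hg0 : 0 < Nat.gcd u m := Nat.gcd_pos_of_pos_right _ hm
  rw [mem_sigma, mem_filter, mem_filter, Nat.mem_divisors, mem_range]
  refine ⟨⟨⟨Nat.div_dvd_of_dvd (Nat.gcd_dvd_right _ _), hm.ne'⟩, ?_⟩, ?_, ?_⟩
  · simp only
    rw [Nat.lt_div_iff_mul_lt_of_dvd hg0.ne' (Nat.gcd_dvd_right _ _), one_mul]
    exact lt_of_le_of_lt (Nat.gcd_le_left _ hu'.1) hu'.2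
  · simp only
    exact Nat.div_lt_div_of_lt_of_dvd (Nat.gcd_dvd_right _ _) hu'.2
  · simp only
    exact Nat.coprime_div_gcd_div_gcd hg0

end Vale.Agent.P012
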