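import Mathlib
import Vale.Agent.P012.Fourier
import Vale.Agent.P012.Periodic
import Vale.Agent.P012.Coll

open Finset

namespace Vale.Agent.P012

lemma qq_mod (D : Finset ℕ) (R e : ℕ) (he : 0 < e) (w : ℕ) :
    qq D (R * (((w % e : ℕ) : ℝ) / e)) = qq D (R * ((w : ℝ) / e)) := by
  have he' : (e : ℝ) ≠ 0 := by positivity
  have h : ((R : ℝ) * ((w : ℝ) / e)) = R * (((w % e : ℕ) : ℝ) / e) + ((R * (w / e : ℕ) : ℕ) : ℤ) := by
    have h1 : (w : ℝ) = ((w % e : ℕ) : ℝ) + e * ((w / e : ℕ) : ℝ) := by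
      exact_mod_cast (Nat.mod_add_div w e).symm
    rw [Int.cast_natCast, Nat.cast_mul]
    conv_lhs => rw [h1]
    field_simp
  rw [h, qq_add_int]

lemma inner_A (P l e S u tag : ℕ) (he : 0 < e) (hl : l ≤ (Nat.primesLE P).card) (hP : P ^ l ≤ e)
    (hc : e.Coprime (primorial P)) (hu : u.Coprime e) (htag : tag.Coprime e) :
    ∑ s ∈ Ioc 0 S, qq (primorial P).divisors (((tag * s : ℕ) : ℝ) * ((u : ℝ) / e)) ^ 2
      ≤ ((S : ℝ) + e) * (1 / 2 ^ l) := by
  set D := (primorial P).divisors with hD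
  have hDc : 0 < D.card := card_pos.mpr ⟨1, by rw [hD]; exact Nat.one_mem_divisors.mpr (primorial_ne_zero P)⟩
  have h1 := sum_Ioc_le e he (tag * u) (htag.mul_left hu) (fun w => qq D ((w : ℝ) / e) ^ 2)
    (fun n => by positivity) (fun n => by
      have := qq_mod D 1 e he n
      simp only [Nat.cast_one, one_mul] at this
      simp only [this]) 0 S
  rw [zero_add] at h1
  have h2 : ∀ s ∈ Ioc 0 S, qq D (((tag * s : ℕ) : ℝ) * ((u : ℝ) / e)) ^ 2
      = qq D ((((s * (tag * u)) : ℕ) : ℝ) / e) ^ 2 := by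
    intro s _
    congr 2
    push_cast
    ring
  rw [sum_congr rfl h2]
  refine h1.trans ?_
  have h3 : ∑ w ∈ range e, qq D ((w : ℝ) / e) ^ 2 ≤ e * (1 / 2 ^ l) := by
    have h4 := sum_norm_sq D (fun g => g) e he
    have h5 := coll_bound P l e hl hP hc
    rw [← hD] at h5
    have h6 : ∑ w ∈ range e, qq D ((w : ℝ) / e) ^ 2
        = (∑ w ∈ range e, ‖∑ ω ∈ D, ee ((ω : ℝ) * ((w : ℝ) / e))‖ ^ 2) / (D.card : ℝ) ^ 2 := by
      rw [sum_div]
      refine sum_congr rfl fun w _ => ?_
      unfold qq F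
      rw [div_pow]
    rw [h6, h4]
    have h7 : ((((D ×ˢ D).filter (fun p => p.1 ≡ p.2 [MOD e])).card : ℕ) : ℝ) * 2 ^ l ≤ (D.card : ℝ) ^ 2 := by
      exact_mod_cast h5
    rw [div_le_iff₀ (by positivity)]
    have h8 : ((((D ×ˢ D).filter (fun p => p.1 ≡ p.2 [MOD e])).card : ℕ) : ℝ) ≤ (D.card : ℝ) ^ 2 / 2 ^ l := by
      rw [le_div_iff₀ (by positivity)]
      exact h7
    calc (e : ℝ) * ((((D ×ˢ D).filter (fun p => p.1 ≡ p.2 [MOD e])).card : ℕ) : ℝ)
        ≤ e * ((D.card : ℝ) ^ 2 / 2 ^ l) := by gcongr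
      _ = _ := by ring
  calc ((S : ℝ) / e + 1) * ∑ w ∈ range e, qq D ((w : ℝ) / e) ^ 2
      ≤ ((S : ℝ) / e + 1) * (e * (1 / 2 ^ l)) := by gcongr
    _ = _ := by field_simp

/-- existence of the random multipliers handling the small moduli -/
lemma exists_s (P h T S tA : ℕ) (hP : P = 2 ^ h) (hP12 : 12 ≤ P) (hS : S = T ^ 2) (htA : tA = 8 * h)
    (hT : 2 * tA ≤ T) (hT0 : 0 < T) (hTP : T < P ^ ((Nat.primesLE P).card + 1)) (tg : Fin tA → Fin 2 → ℕ)
    (htg : ∀ j c e, Nat.Coprime e (primorial P) → Nat.Coprime (tg j c) e) :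
    ∃ s : Fin tA → ℕ, (∀ j, s j ∈ Ioc 0 S) ∧
      ∑ e ∈ (Ioc P T).filter (fun e => e.Coprime (primorial P)),
        ∑ u ∈ (range e).filter (fun u => u.Coprime e),
          ∏ j : Fin tA, ((1 / 2 : ℝ) *
            (qq (primorial P).divisors (((tg j 0 * s j : ℕ) : ℝ) * ((u : ℝ) / e)) ^ 2
              + qq (primorial P).divisors (((tg j 1 * s j : ℕ) : ℝ) * ((u : ℝ) / e)) ^ 2)) ≤ 1 / 6 := by
  set D := (primorial P).divisors with hD
  have hS0 : 0 < S := by rw [hS]; positivity
  have hne : (Fintype.piFinset (fun _ : Fin tA => Ioc 0 S)).Nonempty := by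
    rw [Fintype.piFinset_nonempty]
    intro _
    exact ⟨1, mem_Ioc.mpr ⟨by norm_num, hS0⟩⟩
  have key : ∑ s ∈ Fintype.piFinset (fun _ : Fin tA => Ioc 0 S),
      (∑ e ∈ (Ioc P T).filter (fun e => e.Coprime (primorial P)),
        ∑ u ∈ (range e).filter (fun u => u.Coprime e),
          ∏ j : Fin tA, ((1 / 2 : ℝ) *
            (qq D (((tg j 0 * s j : ℕ) : ℝ) * ((u : ℝ) / e)) ^ 2
              + qq D (((tg j 1 * s j : ℕ) : ℝ) * ((u : ℝ) / e)) ^ 2)))
      ≤ ∑ s ∈ Fintype.piFinset (fun _ : Fin tA => Ioc 0 S), (1 / 6 : ℝ) := by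
    rw [sum_comm]
    have h1 : ∀ e ∈ (Ioc P T).filter (fun e => e.Coprime (primorial P)),
        ∑ s ∈ Fintype.piFinset (fun _ : Fin tA => Ioc 0 S),
          ∑ u ∈ (range e).filter (fun u => u.Coprime e),
          ∏ j : Fin tA, ((1 / 2 : ℝ) *
            (qq D (((tg j 0 * s j : ℕ) : ℝ) * ((u : ℝ) / e)) ^ 2
              + qq D (((tg j 1 * s j : ℕ) : ℝ) * ((u : ℝ) / e)) ^ 2))
        ≤ (S : ℝ) ^ tA * (2 * ((e : ℝ) ^ 2)⁻¹) := by
      intro e he
      have he1 := mem_filter.mp he
      have he2 := mem_Ioc.mp he1.1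
      have he0 : 0 < e := by omega
      rw [sum_comm]
      have hl0 : Nat.log P e ≤ (Nat.primesLE P).card := by
        have h1 : P ^ Nat.log P e ≤ e := Nat.pow_log_le_self P he0.ne'
        have h2 : P ^ Nat.log P e < P ^ ((Nat.primesLE P).card + 1) := lt_of_le_of_lt (h1.trans he2.2) hTP
        have := (Nat.pow_lt_pow_iff_right (show 1 < P by omega)).mp h2
        omega
      have hl1 : 1 ≤ Nat.log P e := by
        apply Nat.le_log_of_pow_le (by omega)
        rw [pow_one]; exact he2.1.le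
      set l := Nat.log P e with hl
      have hPl : P ^ l ≤ e := Nat.pow_log_le_self P he0.ne'
      have hPl2 : e < P ^ (l + 1) := Nat.lt_pow_succ_log_self (by omega) e
      have h2 : ∀ u ∈ (range e).filter (fun u => u.Coprime e),
          ∑ s ∈ Fintype.piFinset (fun _ : Fin tA => Ioc 0 S),
          ∏ j : Fin tA, ((1 / 2 : ℝ) *
            (qq D (((tg j 0 * s j : ℕ) : ℝ) * ((u : ℝ) / e)) ^ 2
              + qq D (((tg j 1 * s j : ℕ) : ℝ) * ((u : ℝ) / e)) ^ 2))
          ≤ (((S : ℝ) + e) * (1 / 2 ^ l)) ^ tA := by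
        intro u hu
        have hu1 := (mem_filter.mp hu).2
        have h3 := (Finset.prod_univ_sum (fun _ : Fin tA => Ioc 0 S) (fun (j : Fin tA) (s : ℕ) => ((1 / 2 : ℝ) *
            (qq D (((tg j 0 * s : ℕ) : ℝ) * ((u : ℝ) / e)) ^ 2
              + qq D (((tg j 1 * s : ℕ) : ℝ) * ((u : ℝ) / e)) ^ 2)))).symm
        rw [h3]
        calc ∏ j : Fin tA, ∑ s ∈ Ioc 0 S, ((1 / 2 : ℝ) *
            (qq D (((tg j 0 * s : ℕ) : ℝ) * ((u : ℝ) / e)) ^ 2
              + qq D (((tg j 1 * s : ℕ) : ℝ) * ((u : ℝ) / e)) ^ 2))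
            ≤ ∏ j : Fin tA, (((S : ℝ) + e) * (1 / 2 ^ l)) := by
              apply prod_le_prod
              · intro j _
                apply sum_nonneg
                intro s _
                positivity
              · intro j _
                rw [← mul_sum, sum_add_distrib]
                have h4 := inner_A P l e S u (tg j 0) he0 hl0 hPl he1.2 hu1 (htg j 0 e he1.2)
                have h5 := inner_A P l e S u (tg j 1) he0 hl0 hPl he1.2 hu1 (htg j 1 e he1.2)
                rw [← hD] at h4 h5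
                linarith
          _ = _ := by rw [prod_const, card_univ, Fintype.card_fin]
      refine (sum_le_sum h2).trans ?_
      rw [sum_const, nsmul_eq_mul]
      have h6 : ((((range e).filter (fun u => u.Coprime e)).card : ℕ) : ℝ) ≤ e := by
        have := card_filter_le (range e) (fun u => u.Coprime e)
        rw [card_range] at this
        exact_mod_cast this
      have hS' : (0 : ℝ) < S := by exact_mod_cast hS0
      have hT' : (0 : ℝ) < T := by exact_mod_cast hT0
      have h7 : (((S : ℝ) + e) * (1 / 2 ^ l)) ^ tA ≤ (S : ℝ) ^ tA * 2 * ((e : ℝ) ^ 4)⁻¹ := by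
        have h8 : ((S : ℝ) + e) ≤ S * (1 + 1 / T) := by
          have : (e : ℝ) ≤ S * (1 / T) := by
            rw [hS]
            push_cast
            have : (T : ℝ) ^ 2 * (1 / T) = T := by field_simp
            rw [this]
            exact_mod_cast he2.2
          linarith
        have h9 : (1 + 1 / (T : ℝ)) ^ tA ≤ 2 := by
          have h10 : (1 + 1 / (T : ℝ)) ≤ Real.exp (1 / T) := by
            have := Real.add_one_le_exp (1 / (T : ℝ))
            linarith
          calc (1 + 1 / (T : ℝ)) ^ tA ≤ (Real.exp (1 / T)) ^ tA := by gcongr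
            _ = Real.exp (tA * (1 / T)) := by rw [← Real.exp_nat_mul]
            _ ≤ Real.exp (1 / 2) := by
              apply Real.exp_le_exp.mpr
              rw [mul_one_div, div_le_div_iff₀ hT' (by norm_num)]
              have : 2 * (tA : ℝ) ≤ T := by exact_mod_cast hT
              linarith
            _ ≤ 2 := by
              have h11 : Real.exp (1 / 2) ^ 2 ≤ 2 ^ 2 := by
                rw [← Real.exp_nat_mul]
                have := Real.exp_one_lt_d9
                norm_num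
                linarith
              have := Real.exp_pos (1 / 2)
              nlinarith
        have h12 : ((1 : ℝ) / 2 ^ l) ^ tA ≤ ((e : ℝ) ^ 4)⁻¹ := by
          rw [div_pow, one_pow, one_div]
          apply inv_anti₀ (by positivity)
          have h13 : e ^ 4 ≤ (2 ^ l) ^ tA := by
            have h14 : (2 ^ l) ^ tA = (P ^ (2 * l)) ^ 4 := by
              rw [hP, htA, ← pow_mul, ← pow_mul, ← pow_mul]
              congr 1
              ring
            rw [h14]
            apply Nat.pow_le_pow_left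
            refine hPl2.le.trans ?_
            apply Nat.pow_le_pow_right (by omega)
            omega
          exact_mod_cast h13
        calc (((S : ℝ) + e) * (1 / 2 ^ l)) ^ tA ≤ ((S * (1 + 1 / T)) * (1 / 2 ^ l)) ^ tA := by gcongr
          _ = S ^ tA * (1 + 1 / T) ^ tA * (1 / 2 ^ l) ^ tA := by rw [mul_pow, mul_pow]
          _ ≤ S ^ tA * 2 * ((e : ℝ) ^ 4)⁻¹ := by gcongr
      have he' : (1 : ℝ) ≤ e := by exact_mod_cast he0
      calc ((((range e).filter (fun u => u.Coprime e)).card : ℕ) : ℝ) * (((S : ℝ) + e) * (1 / 2 ^ l)) ^ tA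
          ≤ e * ((S : ℝ) ^ tA * 2 * ((e : ℝ) ^ 4)⁻¹) := by gcongr
        _ = (S : ℝ) ^ tA * (2 * ((e : ℝ) ^ 3)⁻¹) := by
          field_simp
        _ ≤ (S : ℝ) ^ tA * (2 * ((e : ℝ) ^ 2)⁻¹) := by
          have : ((e : ℝ) ^ 3)⁻¹ ≤ ((e : ℝ) ^ 2)⁻¹ := by
            apply inv_anti₀ (by positivity)
            exact pow_le_pow_right₀ he' (by norm_num)
          gcongr
    refine (sum_le_sum h1).trans ?_
    rw [← mul_sum, ← mul_sum, sum_const, nsmul_eq_mul, Fintype.card_piFinset, prod_const,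
      card_univ, Fintype.card_fin, Nat.card_Ioc, Nat.sub_zero]
    push_cast
    have h2 : ∑ e ∈ (Ioc P T).filter (fun e => e.Coprime (primorial P)), ((e : ℝ) ^ 2)⁻¹ ≤ 1 / 12 := by
      calc ∑ e ∈ (Ioc P T).filter (fun e => e.Coprime (primorial P)), ((e : ℝ) ^ 2)⁻¹
          ≤ ∑ e ∈ Ioc P T, ((e : ℝ) ^ 2)⁻¹ := by
            apply sum_le_sum_of_subset_of_nonneg (filter_subset _ _)
            intro i _ _
            positivity
        _ ≤ 1 / 12 := by
          rcases le_total P T with hPT | hPT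
          · have h3 := sum_Ioc_inv_sq_le_sub (α := ℝ) (k := P) (n := T) (by omega) hPT
            refine h3.trans ?_
            have h4 : (P : ℝ)⁻¹ ≤ 1 / 12 := by
              rw [one_div]
              apply inv_anti₀ (by norm_num)
              exact_mod_cast hP12
            have h5 : (0 : ℝ) ≤ (T : ℝ)⁻¹ := by positivity
            linarith
          · rw [Ioc_eq_empty (by omega)]
            norm_num
    have hS' : (0 : ℝ) < (S : ℝ) ^ tA := by positivity
    nlinarith
  obtain ⟨s, hs, hs2⟩ := exists_le_of_sum_le hne key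
  refine ⟨s, fun j => Fintype.mem_piFinset.mp hs j, hs2⟩

end Vale.Agent.P012
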