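import Mathlib
import Vale.Agent.P012.Fourier
import Vale.Agent.P012.Periodic
import Vale.Agent.P012.PartA

open Finset

namespace Vale.Agent.P012

/-- product of the normalised sums over one block -/
noncomputable def QY {n : ℕ} (D : Finset ℕ) (y : Fin n → ℕ) (t : ℝ) : ℝ := ∏ i, qq D (y i * t)

lemma QY_nonneg {n : ℕ} (D : Finset ℕ) (y : Fin n → ℕ) (t : ℝ) : 0 ≤ QY D y t :=
  prod_nonneg fun _ _ => qq_nonneg _ _

lemma QY_le_one {n : ℕ} (D : Finset ℕ) (y : Fin n → ℕ) (t : ℝ) : QY D y t ≤ 1 :=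
  prod_le_one (fun _ _ => qq_nonneg _ _) fun _ _ => qq_le_one _ _

/-- the value of a choice in one block -/
def ysum {n : ℕ} (y : Fin n → ℕ) (ω : Fin n → ℕ) : ℕ := ∑ i, y i * ω i

/-- the choices in one block -/
def Om (n : ℕ) (D : Finset ℕ) : Finset (Fin n → ℕ) := Fintype.piFinset (fun _ : Fin n => D)

/-- collision probability modulo `e` of `R * ysum` -/
noncomputable def kap {n : ℕ} (D : Finset ℕ) (y : Fin n → ℕ) (e R : ℕ) : ℝ :=
  ((((Om n D) ×ˢ (Om n D)).filter (fun p => R * ysum y p.1 ≡ R * ysum y p.2 [MOD e])).card : ℝ)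
    / ((Om n D).card : ℝ) ^ 2

lemma kap_nonneg {n : ℕ} (D : Finset ℕ) (y : Fin n → ℕ) (e R : ℕ) : 0 ≤ kap D y e R := by
  unfold kap; positivity

lemma sum_QY_sq {n : ℕ} (D : Finset ℕ) (hD : D.Nonempty) (y : Fin n → ℕ) (e R : ℕ) (he : 0 < e) :
    ∑ w ∈ range e, QY D y (R * ((w : ℝ) / e)) ^ 2 = e * kap D y e R := by
  have hΩ : 0 < (Om n D).card := by
    unfold Om
    rw [Fintype.card_piFinset]
    exact prod_pos fun _ _ => hD.card_pos
  have hΩ' : (0 : ℝ) < (Om n D).card := by exact_mod_cast hΩ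
  have h1 := sum_norm_sq (Om n D) (fun ω => R * ysum y ω) e he
  unfold kap
  rw [mul_div_assoc', ← h1, sum_div]
  refine sum_congr rfl fun w _ => ?_
  have h2 := norm_prod_F D hD y (R * ((w : ℝ) / e))
  have h3 : ∑ ω ∈ Om n D, ee (((R * ysum y ω : ℕ) : ℝ) * ((w : ℝ) / e))
      = ∑ ω ∈ Fintype.piFinset (fun _ : Fin n => D), ee (((∑ i, y i * ω i : ℕ) : ℝ) * (R * ((w : ℝ) / e))) := by
    unfold Om ysum
    refine sum_congr rfl fun ω _ => ?_
    congr 1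
    push_cast
    ring
  rw [h3, h2, mul_pow]
  have h4 : ((Fintype.piFinset (fun _ : Fin n => D)).card : ℝ) = (Om n D).card := rfl
  rw [h4, mul_div_cancel_left₀ _ (by positivity)]
  rfl

lemma QY_mod {n : ℕ} (D : Finset ℕ) (y : Fin n → ℕ) (R e : ℕ) (he : 0 < e) (w : ℕ) :
    QY D y (R * (((w % e : ℕ) : ℝ) / e)) = QY D y (R * ((w : ℝ) / e)) := by
  unfold QY
  refine prod_congr rfl fun i _ => ?_
  have := qq_mod D (y i * R) e he w
  push_cast at this
  rw [← mul_assoc, ← mul_assoc]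
  exact this

/-- averaging over `v` for one modulus -/
lemma sum_v_le {n : ℕ} (D : Finset ℕ) (hD : D.Nonempty) (y : Fin n → ℕ) (e R1 R3 V : ℕ) (he : 0 < e) :
    ∑ v ∈ Ioc V (V + V), ∑ u ∈ (range e).filter (fun u => u.Coprime e),
      QY D y (R1 * ((u : ℝ) / e)) ^ 2 * QY D y (((v * R3 : ℕ) : ℝ) * ((u : ℝ) / e)) ^ 2
      ≤ e * kap D y e R1 * ((V + e) * kap D y e R3) := by
  rw [sum_comm]
  have h1 : ∀ u ∈ (range e).filter (fun u => u.Coprime e),
      ∑ v ∈ Ioc V (V + V), QY D y (R1 * ((u : ℝ) / e)) ^ 2 * QY D y (((v * R3 : ℕ) : ℝ) * ((u : ℝ) / e)) ^ 2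
      ≤ QY D y (R1 * ((u : ℝ) / e)) ^ 2 * ((V + e) * kap D y e R3) := by
    intro u hu
    have hu1 := (mem_filter.mp hu).2
    rw [← mul_sum]
    apply mul_le_mul_of_nonneg_left _ (by positivity)
    have h2 := sum_Ioc_le e he u hu1 (fun w => QY D y (R3 * ((w : ℝ) / e)) ^ 2)
      (fun n => by positivity) (fun n => by simp only [QY_mod D y R3 e he n]) V V
    have h3 : ∀ v ∈ Ioc V (V + V), QY D y (((v * R3 : ℕ) : ℝ) * ((u : ℝ) / e)) ^ 2
        = QY D y (R3 * (((v * u : ℕ) : ℝ) / e)) ^ 2 := by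
      intro v _
      congr 2
      push_cast
      ring
    rw [sum_congr rfl h3]
    refine h2.trans ?_
    rw [sum_QY_sq D hD y e R3 he]
    have he' : (e : ℝ) ≠ 0 := by positivity
    apply le_of_eq
    field_simp
  refine (sum_le_sum h1).trans ?_
  rw [← sum_mul]
  apply mul_le_mul_of_nonneg_right _ (mul_nonneg (by positivity) (kap_nonneg _ _ _ _))
  rw [← sum_QY_sq D hD y e R1 he]
  apply sum_le_sum_of_subset_of_nonneg (filter_subset _ _)
  intro i _ _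
  positivity

/-- weighted sum over the large divisors of `m` -/
noncomputable def Omega {n : ℕ} (D : Finset ℕ) (y : Fin n → ℕ) (T m R : ℕ) : ℝ :=
  ∑ e ∈ m.divisors.filter (fun e => T < e), (e : ℝ) ^ ((5/8) : ℝ) * kap D y e R

lemma sum_kap_le {n : ℕ} (D : Finset ℕ) (hD : D.Nonempty) (y : Fin n → ℕ) (T M R Fmax : ℕ) (Rk : ℝ)
    (hRk : ∀ F : ℕ, 0 < F → F ≤ Fmax →
      ∑ e ∈ F.divisors.filter (fun e : ℕ => (T : ℝ) < e), (e : ℝ) ^ (-(3/8) : ℝ) ≤ Rk)
    (hR : 0 < R) (hinj : ∀ ω ∈ Om n D, ∀ ω' ∈ Om n D, ysum y ω = ysum y ω' → ω = ω')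
    (hmax : ∀ ω ∈ Om n D, R * ysum y ω ≤ Fmax) (hRk0 : 0 ≤ Rk) :
    ∑ e ∈ Ioc T M, (e : ℝ) ^ (-(3/8) : ℝ) * kap D y e R ≤ M / ((Om n D).card : ℝ) + Rk := by
  classical
  have hΩ : 0 < (Om n D).card := by
    unfold Om
    rw [Fintype.card_piFinset]
    exact prod_pos fun _ _ => hD.card_pos
  have hΩ' : (0 : ℝ) < (Om n D).card := by exact_mod_cast hΩ
  have h1 : ∑ e ∈ Ioc T M, (e : ℝ) ^ (-(3/8) : ℝ) * kap D y e R
      = (∑ p ∈ (Om n D) ×ˢ (Om n D), ∑ e ∈ Ioc T M,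
          if R * ysum y p.1 ≡ R * ysum y p.2 [MOD e] then (e : ℝ) ^ (-(3/8) : ℝ) else 0)
        / ((Om n D).card : ℝ) ^ 2 := by
    rw [sum_comm, sum_div]
    refine sum_congr rfl fun e _ => ?_
    unfold kap
    rw [← sum_filter, sum_const, nsmul_eq_mul]
    ring
  rw [h1]
  have h2 : ∀ p ∈ (Om n D) ×ˢ (Om n D), (∑ e ∈ Ioc T M,
          if R * ysum y p.1 ≡ R * ysum y p.2 [MOD e] then (e : ℝ) ^ (-(3/8) : ℝ) else 0)
        ≤ (if p.1 = p.2 then (M : ℝ) else 0) + Rk := by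
    intro p hp
    have hp' := mem_product.mp hp
    split_ifs with hpe
    · have h3 : ∑ e ∈ Ioc T M, (if R * ysum y p.1 ≡ R * ysum y p.2 [MOD e] then (e : ℝ) ^ (-(3/8) : ℝ) else 0)
          ≤ ∑ e ∈ Ioc T M, (1 : ℝ) := by
        apply sum_le_sum
        intro e he
        have he' := mem_Ioc.mp he
        split_ifs
        · apply Real.rpow_le_one_of_one_le_of_nonpos
          · have : 1 ≤ e := by omega
            exact_mod_cast this
          · norm_num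
        · norm_num
      refine h3.trans ?_
      rw [sum_const, nsmul_eq_mul, mul_one, Nat.card_Ioc]
      have : ((M - T : ℕ) : ℝ) ≤ M := by exact_mod_cast Nat.sub_le _ _
      linarith
    · rw [zero_add, ← sum_filter]
      have hne : ysum y p.1 ≠ ysum y p.2 := fun h => hpe (hinj _ hp'.1 _ hp'.2 h)
      have h4 : ∃ F : ℕ, 0 < F ∧ F ≤ Fmax ∧ ∀ e, R * ysum y p.1 ≡ R * ysum y p.2 [MOD e] → e ∣ F := by
        rcases lt_or_gt_of_ne hne with hlt | hlt
        · refine ⟨R * ysum y p.2 - R * ysum y p.1, ?_, ?_, ?_⟩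
          · have : R * ysum y p.1 < R * ysum y p.2 := Nat.mul_lt_mul_of_pos_left hlt hR
            omega
          · exact (Nat.sub_le _ _).trans (hmax _ hp'.2)
          · intro e he
            exact (Nat.modEq_iff_dvd' (Nat.mul_le_mul_left _ hlt.le)).mp he
        · refine ⟨R * ysum y p.1 - R * ysum y p.2, ?_, ?_, ?_⟩
          · have : R * ysum y p.2 < R * ysum y p.1 := Nat.mul_lt_mul_of_pos_left hlt hR
            omega
          · exact (Nat.sub_le _ _).trans (hmax _ hp'.1)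
          · intro e he
            exact (Nat.modEq_iff_dvd' (Nat.mul_le_mul_left _ hlt.le)).mp he.symm
      obtain ⟨F, hF0, hFm, hF⟩ := h4
      refine le_trans ?_ (hRk F hF0 hFm)
      apply sum_le_sum_of_subset_of_nonneg
      · intro e he
        have he1 := mem_filter.mp he
        have he2 := mem_Ioc.mp he1.1
        rw [mem_filter, Nat.mem_divisors]
        refine ⟨⟨hF e he1.2, hF0.ne'⟩, ?_⟩
        exact_mod_cast he2.1
      · intro i _ _
        positivity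
  have h3 := sum_le_sum h2
  rw [sum_add_distrib, ← sum_filter, sum_const, sum_const, nsmul_eq_mul, nsmul_eq_mul, card_product] at h3
  have h4 : (((Om n D) ×ˢ (Om n D)).filter (fun p => p.1 = p.2)).card ≤ (Om n D).card := by
    apply card_le_card_of_injOn (fun p => p.1)
    · intro p hp
      exact (mem_product.mp (mem_filter.mp hp).1).1
    · intro p hp p' hp' h
      have e1 := (mem_filter.mp hp).2
      have e2 := (mem_filter.mp hp').2
      simp only at h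
      exact Prod.ext h (by rw [← e1, ← e2, h])
  rw [div_le_iff₀ (by positivity)]
  refine h3.trans ?_
  have h5 : ((((Om n D) ×ˢ (Om n D)).filter (fun p => p.1 = p.2)).card : ℝ) ≤ (Om n D).card := by
    exact_mod_cast h4
  push_cast
  have h6 : (M / ((Om n D).card : ℝ) + Rk) * ((Om n D).card : ℝ) ^ 2
      = ((Om n D).card : ℝ) * M + ((Om n D).card : ℝ) * ((Om n D).card : ℝ) * Rk := by
    field_simp
  rw [h6]
  gcongr

lemma sum_Omega_le {n : ℕ} (D : Finset ℕ) (y : Fin n → ℕ) (T M R : ℕ) :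
    ∑ m ∈ Icc 1 M, Omega D y T m R ≤ M * ∑ e ∈ Ioc T M, (e : ℝ) ^ (-(3/8) : ℝ) * kap D y e R := by
  unfold Omega
  have h1 : ∑ m ∈ Icc 1 M, ∑ e ∈ m.divisors.filter (fun e => T < e), (e : ℝ) ^ ((5/8) : ℝ) * kap D y e R
      = ∑ e ∈ Ioc T M, ∑ m ∈ (Icc 1 M).filter (fun m => e ∣ m), (e : ℝ) ^ ((5/8) : ℝ) * kap D y e R := by
    apply sum_comm'
    intro m e
    simp only [mem_Icc, mem_filter, Nat.mem_divisors, mem_Ioc]
    constructor
    · rintro ⟨⟨h1, h2⟩, ⟨h3, h4⟩, h5⟩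
      exact ⟨⟨⟨h1, h2⟩, h3⟩, h5, (Nat.le_of_dvd (by omega) h3).trans h2⟩
    · rintro ⟨⟨⟨h1, h2⟩, h3⟩, h4, h5⟩
      exact ⟨⟨h1, h2⟩, ⟨h3, by omega⟩, h4⟩
  rw [h1, mul_sum]
  apply sum_le_sum
  intro e he
  have he' := mem_Ioc.mp he
  have he0 : (0 : ℝ) < e := by
    have : 0 < e := by omega
    exact_mod_cast this
  rw [sum_const, nsmul_eq_mul]
  have h2 : (((Icc 1 M).filter (fun m => e ∣ m)).card : ℝ) ≤ M / e := by
    have h3 : (Icc 1 M) = Ioc 0 M := by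
      ext x; simp only [mem_Icc, mem_Ioc]; omega
    rw [h3, Nat.Ioc_filter_dvd_card_eq_div]
    exact Nat.cast_div_le
  have h3 : (e : ℝ) ^ ((5/8) : ℝ) = e * (e : ℝ) ^ (-(3/8) : ℝ) := by
    conv_rhs => rw [← Real.rpow_one (e : ℝ), ← Real.rpow_mul he0.le, ← Real.rpow_add he0]
    norm_num
  calc (((Icc 1 M).filter (fun m => e ∣ m)).card : ℝ) * ((e : ℝ) ^ ((5/8) : ℝ) * kap D y e R)
      ≤ (M / e) * ((e : ℝ) ^ ((5/8) : ℝ) * kap D y e R) := by
        apply mul_le_mul_of_nonneg_right h2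
        exact mul_nonneg (by positivity) (kap_nonneg _ _ _ _)
    _ = _ := by rw [h3]; field_simp

/-- the block contribution for the large divisors of `m` -/
noncomputable def Bsum {n : ℕ} (D : Finset ℕ) (y : Fin n → ℕ) (R1 R2 R3 R4 T m v : ℕ) : ℝ :=
  ∑ e ∈ m.divisors.filter (fun e => T < e), ∑ u ∈ (range e).filter (fun u => u.Coprime e),
    ((1 / 2 : ℝ) * (QY D y (R1 * ((u : ℝ) / e)) ^ 2 * QY D y (((v * R3 : ℕ) : ℝ) * ((u : ℝ) / e)) ^ 2
      + QY D y (R2 * ((u : ℝ) / e)) ^ 2 * QY D y (((v * R4 : ℕ) : ℝ) * ((u : ℝ) / e)) ^ 2))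

lemma Bsum_nonneg {n : ℕ} (D : Finset ℕ) (y : Fin n → ℕ) (R1 R2 R3 R4 T m v : ℕ) :
    0 ≤ Bsum D y R1 R2 R3 R4 T m v := by
  unfold Bsum
  apply sum_nonneg; intro _ _
  apply sum_nonneg; intro _ _
  positivity

lemma pair_sum_le {n : ℕ} (D : Finset ℕ) (hD : D.Nonempty) (y : Fin n → ℕ) (R1 R3 T M m V : ℕ)
    (hT : 0 < T) (hm : m ∈ Icc 1 M) (h1 : Omega D y T m R1 ≤ 1) (h3 : Omega D y T m R3 ≤ 1) :
    ∑ v ∈ Ioc V (V + V), ∑ e ∈ m.divisors.filter (fun e => T < e),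
      ∑ u ∈ (range e).filter (fun u => u.Coprime e),
        QY D y (R1 * ((u : ℝ) / e)) ^ 2 * QY D y (((v * R3 : ℕ) : ℝ) * ((u : ℝ) / e)) ^ 2
      ≤ V * (T : ℝ) ^ (-(1/4) : ℝ) + (M : ℝ) ^ ((3/4) : ℝ) := by
  rw [sum_comm]
  have hm' := mem_Icc.mp hm
  have hterm : ∀ e ∈ m.divisors.filter (fun e => T < e),
      0 ≤ (e : ℝ) ^ ((5/8) : ℝ) * kap D y e R1 ∧ 0 ≤ (e : ℝ) ^ ((5/8) : ℝ) * kap D y e R3 := by
    intro e _
    exact ⟨mul_nonneg (by positivity) (kap_nonneg _ _ _ _), mul_nonneg (by positivity) (kap_nonneg _ _ _ _)⟩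
  have hb : ∀ e ∈ m.divisors.filter (fun e => T < e),
      ∑ v ∈ Ioc V (V + V), ∑ u ∈ (range e).filter (fun u => u.Coprime e),
        QY D y (R1 * ((u : ℝ) / e)) ^ 2 * QY D y (((v * R3 : ℕ) : ℝ) * ((u : ℝ) / e)) ^ 2
      ≤ ((e : ℝ) ^ ((5/8) : ℝ) * kap D y e R1) * (V * (T : ℝ) ^ (-(1/4) : ℝ) + (M : ℝ) ^ ((3/4) : ℝ)) := by
    intro e he
    have he1 := mem_filter.mp he
    have he2 := Nat.mem_divisors.mp he1.1
    have he0 : 0 < e := by omega
    have he0' : (0 : ℝ) < e := by exact_mod_cast he0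
    have heM : e ≤ M := (Nat.le_of_dvd (by omega) he2.1).trans hm'.2
    refine (sum_v_le D hD y e R1 R3 V he0).trans ?_
    have hk3 : (e : ℝ) ^ ((5/8) : ℝ) * kap D y e R3 ≤ 1 := by
      refine le_trans ?_ h3
      unfold Omega
      exact single_le_sum (f := fun e : ℕ => (e : ℝ) ^ ((5/8) : ℝ) * kap D y e R3)
        (fun i hi => (hterm i hi).2) he
    have e1 : (e : ℝ) = (e : ℝ) ^ ((5/8) : ℝ) * (e : ℝ) ^ ((5/8) : ℝ) * (e : ℝ) ^ (-(1/4) : ℝ) := by
      rw [← Real.rpow_add he0', ← Real.rpow_add he0']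
      norm_num
    have e2 : (e : ℝ) ^ (-(1/4) : ℝ) * e = (e : ℝ) ^ ((3/4) : ℝ) := by
      conv_lhs => rw [← Real.rpow_one (e : ℝ), ← Real.rpow_mul he0'.le, ← Real.rpow_add he0']
      norm_num
    have e3 : (e : ℝ) ^ (-(1/4) : ℝ) ≤ (T : ℝ) ^ (-(1/4) : ℝ) := by
      apply Real.rpow_le_rpow_of_nonpos (by exact_mod_cast hT) (by exact_mod_cast he1.2.le) (by norm_num)
    have e4 : (e : ℝ) ^ ((3/4) : ℝ) ≤ (M : ℝ) ^ ((3/4) : ℝ) := by
      apply Real.rpow_le_rpow he0'.le (by exact_mod_cast heM) (by norm_num)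
    have hk1 := (hterm e he).1
    have hk30 := (hterm e he).2
    calc (e : ℝ) * kap D y e R1 * ((V + e) * kap D y e R3)
        = ((e : ℝ) ^ ((5/8) : ℝ) * kap D y e R1) * ((e : ℝ) ^ ((5/8) : ℝ) * kap D y e R3)
            * ((e : ℝ) ^ (-(1/4) : ℝ) * (V + e)) := by
          have e5 : ((e : ℝ) ^ ((5/8) : ℝ) * kap D y e R1) * ((e : ℝ) ^ ((5/8) : ℝ) * kap D y e R3)
            * ((e : ℝ) ^ (-(1/4) : ℝ) * (V + e))
            = ((e : ℝ) ^ ((5/8) : ℝ) * (e : ℝ) ^ ((5/8) : ℝ) * (e : ℝ) ^ (-(1/4) : ℝ))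
              * (kap D y e R1 * kap D y e R3 * (V + e)) := by ring
          rw [e5, ← e1]
          ring
      _ ≤ ((e : ℝ) ^ ((5/8) : ℝ) * kap D y e R1) * 1
            * ((e : ℝ) ^ (-(1/4) : ℝ) * (V + e)) := by
          apply mul_le_mul_of_nonneg_right _ (by positivity)
          exact mul_le_mul_of_nonneg_left hk3 hk1
      _ = ((e : ℝ) ^ ((5/8) : ℝ) * kap D y e R1) * (V * (e : ℝ) ^ (-(1/4) : ℝ) + (e : ℝ) ^ ((3/4) : ℝ)) := by
          rw [← e2]; ring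
      _ ≤ _ := by
          apply mul_le_mul_of_nonneg_left _ hk1
          have : (0 : ℝ) ≤ V := by positivity
          have := mul_le_mul_of_nonneg_left e3 this
          linarith
  refine (sum_le_sum hb).trans ?_
  rw [← sum_mul]
  have : ∑ e ∈ m.divisors.filter (fun e => T < e), (e : ℝ) ^ ((5/8) : ℝ) * kap D y e R1 ≤ 1 := h1
  calc _ ≤ 1 * (V * (T : ℝ) ^ (-(1/4) : ℝ) + (M : ℝ) ^ ((3/4) : ℝ)) := by
        apply mul_le_mul_of_nonneg_right this (by positivity)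
    _ = _ := one_mul _

lemma markov_card (s : Finset ℕ) (f : ℕ → ℝ) (hf : ∀ m ∈ s, 0 ≤ f m) (c B : ℝ) (hc : 0 < c)
    (h : ∑ m ∈ s, f m ≤ B) : ((s.filter (fun m => c < f m)).card : ℝ) ≤ B / c := by
  rw [le_div_iff₀ hc]
  refine le_trans ?_ h
  calc ((s.filter (fun m => c < f m)).card : ℝ) * c = ∑ m ∈ s.filter (fun m => c < f m), c := by
        rw [sum_const, nsmul_eq_mul]
    _ ≤ ∑ m ∈ s.filter (fun m => c < f m), f m := sum_le_sum fun m hm => (mem_filter.mp hm).2.le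
    _ ≤ ∑ m ∈ s, f m := sum_le_sum_of_subset_of_nonneg (filter_subset _ _) fun i hi _ => hf i hi

lemma Omega_nonneg {n : ℕ} (D : Finset ℕ) (y : Fin n → ℕ) (T m R : ℕ) : 0 ≤ Omega D y T m R := by
  unfold Omega
  apply sum_nonneg; intro _ _
  exact mul_nonneg (by positivity) (kap_nonneg _ _ _ _)

/-- choice of `v` -/
lemma exists_v {n : ℕ} (D : Finset ℕ) (hD : D.Nonempty) (y : Fin n → ℕ) (R : Fin 4 → ℕ) (T M V : ℕ)
    (hT : 0 < T) (hV : 0 < V) (β : ℝ) (hβ : ∀ k, ∑ m ∈ Icc 1 M, Omega D y T m (R k) ≤ M * β) :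
    ∃ v ∈ Ioc V (V + V), ∃ Bad : Finset ℕ,
      (Bad.card : ℝ) ≤ M * (4 * β + 3 * ((T : ℝ) ^ (-(1/4) : ℝ) + (M : ℝ) ^ ((3/4) : ℝ) / V)) ∧
      ∀ m ∈ Icc 1 M, m ∉ Bad → Bsum D y (R 0) (R 1) (R 2) (R 3) T m v ≤ 1 / 3 := by
  classical
  set ε : ℝ := (T : ℝ) ^ (-(1/4) : ℝ) + (M : ℝ) ^ ((3/4) : ℝ) / V with hε
  set good := (Icc 1 M).filter (fun m => ∀ k, Omega D y T m (R k) ≤ 1) with hgood
  have hV' : (0 : ℝ) < V := by exact_mod_cast hV
  have hsum : ∑ v ∈ Ioc V (V + V), ∑ m ∈ good, Bsum D y (R 0) (R 1) (R 2) (R 3) T m v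
      ≤ ∑ v ∈ Ioc V (V + V), (M * ε) := by
    rw [sum_comm, sum_const, nsmul_eq_mul, Nat.card_Ioc]
    have h1 : ∀ m ∈ good, ∑ v ∈ Ioc V (V + V), Bsum D y (R 0) (R 1) (R 2) (R 3) T m v ≤ V * ε := by
      intro m hm
      have hm' := mem_filter.mp hm
      have e1 := pair_sum_le D hD y (R 0) (R 2) T M m V hT hm'.1 (hm'.2 0) (hm'.2 2)
      have e2 := pair_sum_le D hD y (R 1) (R 3) T M m V hT hm'.1 (hm'.2 1) (hm'.2 3)
      have e3 : ∑ v ∈ Ioc V (V + V), Bsum D y (R 0) (R 1) (R 2) (R 3) T m v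
          = (1 / 2) * ((∑ v ∈ Ioc V (V + V), ∑ e ∈ m.divisors.filter (fun e => T < e),
      ∑ u ∈ (range e).filter (fun u => u.Coprime e),
        QY D y (R 0 * ((u : ℝ) / e)) ^ 2 * QY D y (((v * R 2 : ℕ) : ℝ) * ((u : ℝ) / e)) ^ 2)
        + (∑ v ∈ Ioc V (V + V), ∑ e ∈ m.divisors.filter (fun e => T < e),
      ∑ u ∈ (range e).filter (fun u => u.Coprime e),
        QY D y (R 1 * ((u : ℝ) / e)) ^ 2 * QY D y (((v * R 3 : ℕ) : ℝ) * ((u : ℝ) / e)) ^ 2)) := by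
        unfold Bsum
        rw [← sum_add_distrib, mul_sum]
        refine sum_congr rfl fun v _ => ?_
        rw [← sum_add_distrib, mul_sum]
        refine sum_congr rfl fun e _ => ?_
        rw [← sum_add_distrib, mul_sum]
      rw [e3]
      have e4 : (V : ℝ) * ε = V * (T : ℝ) ^ (-(1/4) : ℝ) + (M : ℝ) ^ ((3/4) : ℝ) := by
        rw [hε]; field_simp
      rw [e4]
      linarith
    refine (sum_le_sum h1).trans ?_
    rw [sum_const, nsmul_eq_mul]
    have h2 : (good.card : ℝ) ≤ M := by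
      have := card_filter_le (Icc 1 M) (fun m => ∀ k, Omega D y T m (R k) ≤ 1)
      rw [Nat.card_Icc, Nat.add_sub_cancel] at this
      exact_mod_cast this
    have h3 : ((V + V - V : ℕ) : ℝ) = V := by
      rw [Nat.add_sub_cancel]
    rw [h3]
    have hε0 : 0 ≤ V * ε := by rw [hε]; positivity
    calc (good.card : ℝ) * (V * ε) ≤ M * (V * ε) := by gcongr
      _ = _ := by ring
  have hne : (Ioc V (V + V)).Nonempty := ⟨V + V, mem_Ioc.mpr ⟨by omega, le_rfl⟩⟩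
  obtain ⟨v, hv, hv2⟩ := exists_le_of_sum_le hne hsum
  set bad1 : Fin 4 → Finset ℕ := fun k => (Icc 1 M).filter (fun m => 1 < Omega D y T m (R k)) with hbad1
  set bad2 := good.filter (fun m => 1 / 3 < Bsum D y (R 0) (R 1) (R 2) (R 3) T m v) with hbad2
  refine ⟨v, hv, (univ.biUnion bad1) ∪ bad2, ?_, ?_⟩
  · have h1 : ∀ k, ((bad1 k).card : ℝ) ≤ M * β := by
      intro k
      have := markov_card (Icc 1 M) (fun m => Omega D y T m (R k))
        (fun m _ => Omega_nonneg _ _ _ _ _) 1 (M * β) one_pos (hβ k)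
      rw [div_one] at this
      exact this
    have h2 : (bad2.card : ℝ) ≤ (M * ε) / (1 / 3) :=
      markov_card good (fun m => Bsum D y (R 0) (R 1) (R 2) (R 3) T m v)
        (fun m _ => Bsum_nonneg _ _ _ _ _ _ _ _ _) (1 / 3) (M * ε) (by norm_num) hv2
    have h3 : (((univ.biUnion bad1) ∪ bad2).card : ℝ) ≤ (∑ k, ((bad1 k).card : ℝ)) + bad2.card := by
      have e1 := card_union_le (univ.biUnion bad1) bad2
      have e2 := card_biUnion_le (s := univ) (t := bad1)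
      have e3 : ((univ.biUnion bad1) ∪ bad2).card ≤ (∑ k, (bad1 k).card) + bad2.card := by omega
      exact_mod_cast e3
    refine h3.trans ?_
    have h4 : ∑ k, ((bad1 k).card : ℝ) ≤ 4 * (M * β) := by
      calc ∑ k, ((bad1 k).card : ℝ) ≤ ∑ k : Fin 4, (M * β) := sum_le_sum fun k _ => h1 k
        _ = _ := by simp
    have h5 : (M * ε) / (1 / 3) = 3 * (M * ε) := by ring
    rw [h5] at h2
    linarith
  · intro m hm hmb
    rw [mem_union, not_or] at hmb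
    have hg : m ∈ good := by
      rw [hgood, mem_filter]
      refine ⟨hm, fun k => ?_⟩
      by_contra hk
      push Not at hk
      apply hmb.1
      rw [mem_biUnion]
      exact ⟨k, mem_univ _, mem_filter.mpr ⟨hm, hk⟩⟩
    by_contra hB
    push Not at hB
    exact hmb.2 (mem_filter.mpr ⟨hg, hB⟩)

end Vale.Agent.P012
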