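import Mathlib
import Vale.Agent.P012.PartB

open Finset

namespace Vale.Agent.P012

/-- index type of the slots -/
abbrev Slot (tA n : ℕ) : Type := (Fin tA × Fin 2) ⊕ (Fin 4 × Fin n)

/-- multipliers of the four blocks -/
def Cmul (R : Fin 4 → ℕ) (v : ℕ) (k : Fin 4) : ℕ := if k.1 < 2 then R k else v * R k

/-- weight of a slot -/
def Wt {tA n : ℕ} (tg : Fin tA → Fin 2 → ℕ) (s : Fin tA → ℕ) (y : Fin n → ℕ) (R : Fin 4 → ℕ) (v : ℕ) :
    Slot tA n → ℕ
  | Sum.inl (j, c) => tg j c * s j
  | Sum.inr (k, i) => Cmul R v k * y i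

/-- all choices -/
def AllOm (tA n : ℕ) (D : Finset ℕ) : Finset (Slot tA n → ℕ) := Fintype.piFinset (fun _ => D)

/-- the value of a choice -/
def Xval {tA n : ℕ} (W : Slot tA n → ℕ) (ω : Slot tA n → ℕ) : ℕ := ∑ i, W i * ω i

lemma prod_slots {tA n : ℕ} (D : Finset ℕ) (tg : Fin tA → Fin 2 → ℕ) (s : Fin tA → ℕ) (y : Fin n → ℕ)
    (R : Fin 4 → ℕ) (v : ℕ) (t : ℝ) :
    ∏ i, qq D (Wt tg s y R v i * t)
      = (∏ j, (qq D (((tg j 0 * s j : ℕ) : ℝ) * t) * qq D (((tg j 1 * s j : ℕ) : ℝ) * t)))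
        * ((QY D y (R 0 * t) * QY D y (((v * R 2 : ℕ) : ℝ) * t))
          * (QY D y (R 1 * t) * QY D y (((v * R 3 : ℕ) : ℝ) * t))) := by
  rw [Fintype.prod_sum_type, Fintype.prod_prod_type, Fintype.prod_prod_type]
  congr 1
  · refine prod_congr rfl fun j _ => ?_
    rw [Fin.prod_univ_two]
    rfl
  · rw [Fin.prod_univ_four]
    have h : ∀ k : Fin 4, ∏ i, qq D ((Wt tg s y R v (Sum.inr (k, i)) : ℕ) * t)
        = QY D y ((Cmul R v k : ℕ) * t) := by
      intro k
      unfold QY
      refine prod_congr rfl fun i _ => ?_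
      congr 1
      have : Wt tg s y R v (Sum.inr (k, i)) = Cmul R v k * y i := rfl
      rw [this]
      push_cast
      ring
    rw [h, h, h, h]
    have e0 : Cmul R v 0 = R 0 := rfl
    have e1 : Cmul R v 1 = R 1 := rfl
    have e2 : Cmul R v 2 = v * R 2 := rfl
    have e3 : Cmul R v 3 = v * R 3 := rfl
    rw [e0, e1, e2, e3]
    ring

lemma prod_le_A {tA n : ℕ} (D : Finset ℕ) (tg : Fin tA → Fin 2 → ℕ) (s : Fin tA → ℕ) (y : Fin n → ℕ)
    (R : Fin 4 → ℕ) (v : ℕ) (t : ℝ) :
    ∏ i, qq D (Wt tg s y R v i * t)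
      ≤ ∏ j : Fin tA, ((1 / 2 : ℝ) * (qq D (((tg j 0 * s j : ℕ) : ℝ) * t) ^ 2
              + qq D (((tg j 1 * s j : ℕ) : ℝ) * t) ^ 2)) := by
  rw [prod_slots]
  have h1 : (QY D y (R 0 * t) * QY D y (((v * R 2 : ℕ) : ℝ) * t))
          * (QY D y (R 1 * t) * QY D y (((v * R 3 : ℕ) : ℝ) * t)) ≤ 1 := by
    apply mul_le_one₀
    · apply mul_le_one₀ (QY_le_one _ _ _) (QY_nonneg _ _ _) (QY_le_one _ _ _)
    · exact mul_nonneg (QY_nonneg _ _ _) (QY_nonneg _ _ _)
    · apply mul_le_one₀ (QY_le_one _ _ _) (QY_nonneg _ _ _) (QY_le_one _ _ _)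
  have h2 : 0 ≤ ∏ j, (qq D (((tg j 0 * s j : ℕ) : ℝ) * t) * qq D (((tg j 1 * s j : ℕ) : ℝ) * t)) :=
    prod_nonneg fun _ _ => mul_nonneg (qq_nonneg _ _) (qq_nonneg _ _)
  refine (mul_le_of_le_one_right h2 h1).trans ?_
  apply prod_le_prod
  · intro j _
    exact mul_nonneg (qq_nonneg _ _) (qq_nonneg _ _)
  · intro j _
    nlinarith [sq_nonneg (qq D (((tg j 0 * s j : ℕ) : ℝ) * t) - qq D (((tg j 1 * s j : ℕ) : ℝ) * t))]

lemma prod_le_B {tA n : ℕ} (D : Finset ℕ) (tg : Fin tA → Fin 2 → ℕ) (s : Fin tA → ℕ) (y : Fin n → ℕ)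
    (R : Fin 4 → ℕ) (v : ℕ) (t : ℝ) :
    ∏ i, qq D (Wt tg s y R v i * t)
      ≤ (1 / 2 : ℝ) * (QY D y (R 0 * t) ^ 2 * QY D y (((v * R 2 : ℕ) : ℝ) * t) ^ 2
      + QY D y (R 1 * t) ^ 2 * QY D y (((v * R 3 : ℕ) : ℝ) * t) ^ 2) := by
  rw [prod_slots]
  have h1 : ∏ j, (qq D (((tg j 0 * s j : ℕ) : ℝ) * t) * qq D (((tg j 1 * s j : ℕ) : ℝ) * t)) ≤ 1 := by
    apply prod_le_one
    · intro j _
      exact mul_nonneg (qq_nonneg _ _) (qq_nonneg _ _)
    · intro j _
      exact mul_le_one₀ (qq_le_one _ _) (qq_nonneg _ _) (qq_le_one _ _)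
  have h2 : 0 ≤ (QY D y (R 0 * t) * QY D y (((v * R 2 : ℕ) : ℝ) * t))
          * (QY D y (R 1 * t) * QY D y (((v * R 3 : ℕ) : ℝ) * t)) :=
    mul_nonneg (mul_nonneg (QY_nonneg _ _ _) (QY_nonneg _ _ _))
      (mul_nonneg (QY_nonneg _ _ _) (QY_nonneg _ _ _))
  refine (mul_le_of_le_one_left h2 h1).trans ?_
  rw [← mul_pow, ← mul_pow]
  nlinarith [sq_nonneg ((QY D y (R 0 * t) * QY D y (((v * R 2 : ℕ) : ℝ) * t))
          - (QY D y (R 1 * t) * QY D y (((v * R 3 : ℕ) : ℝ) * t)))]

/-- the number of choices whose value is divisible by `m` is at least half the expected one -/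
lemma count_main {tA n : ℕ} (P T m v : ℕ) (tg : Fin tA → Fin 2 → ℕ) (s : Fin tA → ℕ) (y : Fin n → ℕ)
    (R : Fin 4 → ℕ) (hm : 0 < m) (hmc : m.Coprime (primorial P))
    (HA : ∑ e ∈ (Ioc P T).filter (fun e => e.Coprime (primorial P)),
        ∑ u ∈ (range e).filter (fun u => u.Coprime e),
          ∏ j : Fin tA, ((1 / 2 : ℝ) *
            (qq (primorial P).divisors (((tg j 0 * s j : ℕ) : ℝ) * ((u : ℝ) / e)) ^ 2
              + qq (primorial P).divisors (((tg j 1 * s j : ℕ) : ℝ) * ((u : ℝ) / e)) ^ 2)) ≤ 1 / 6)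
    (HB : Bsum (primorial P).divisors y (R 0) (R 1) (R 2) (R 3) T m v ≤ 1 / 3) :
    ((AllOm tA n (primorial P).divisors).card : ℝ) ≤ 2 * m *
      (((AllOm tA n (primorial P).divisors).filter (fun ω => m ∣ Xval (Wt tg s y R v) ω)).card : ℝ) := by
  classical
  set D := (primorial P).divisors with hD
  have hDne : D.Nonempty := ⟨1, by rw [hD]; exact Nat.one_mem_divisors.mpr (primorial_ne_zero P)⟩
  apply count_lower _ _ m hm
  have h1 : ∀ u ∈ Ioo 0 m, ‖∑ ω ∈ AllOm tA n D, ee ((Xval (Wt tg s y R v) ω : ℝ) * ((u : ℝ) / m))‖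
      = ((AllOm tA n D).card : ℝ) * ∏ i, qq D (Wt tg s y R v i * ((u : ℝ) / m)) := by
    intro u _
    exact norm_prod_F D hDne (Wt tg s y R v) ((u : ℝ) / m)
  rw [sum_congr rfl h1, ← mul_sum]
  have h2 := sum_by_order m hm (fun t => ∏ i, qq D (Wt tg s y R v i * t))
    (fun t => prod_nonneg fun _ _ => qq_nonneg _ _)
  have h3 : ∑ e ∈ m.divisors.filter (fun e => 1 < e),
          ∑ u ∈ (range e).filter (fun u => u.Coprime e), ∏ i, qq D (Wt tg s y R v i * ((u : ℝ) / e))
      ≤ 1 / 2 := by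
    rw [← sum_filter_add_sum_filter_not (m.divisors.filter (fun e => 1 < e)) (fun e => e ≤ T)]
    have hA : ∑ e ∈ (m.divisors.filter (fun e => 1 < e)).filter (fun e => e ≤ T),
          ∑ u ∈ (range e).filter (fun u => u.Coprime e), ∏ i, qq D (Wt tg s y R v i * ((u : ℝ) / e))
        ≤ 1 / 6 := by
      refine le_trans ?_ HA
      calc ∑ e ∈ (m.divisors.filter (fun e => 1 < e)).filter (fun e => e ≤ T),
          ∑ u ∈ (range e).filter (fun u => u.Coprime e), ∏ i, qq D (Wt tg s y R v i * ((u : ℝ) / e))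
          ≤ ∑ e ∈ (m.divisors.filter (fun e => 1 < e)).filter (fun e => e ≤ T),
            ∑ u ∈ (range e).filter (fun u => u.Coprime e),
            ∏ j : Fin tA, ((1 / 2 : ℝ) * (qq D (((tg j 0 * s j : ℕ) : ℝ) * ((u : ℝ) / e)) ^ 2
              + qq D (((tg j 1 * s j : ℕ) : ℝ) * ((u : ℝ) / e)) ^ 2)) := by
            apply sum_le_sum; intro e _
            apply sum_le_sum; intro u _
            exact prod_le_A D tg s y R v _
        _ ≤ _ := by
            apply sum_le_sum_of_subset_of_nonneg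
            · intro e he
              have he1 := mem_filter.mp he
              have he2 := mem_filter.mp he1.1
              have he3 := Nat.mem_divisors.mp he2.1
              have hec : e.Coprime (primorial P) := Nat.Coprime.coprime_dvd_left he3.1 hmc
              rw [mem_filter, mem_Ioc]
              exact ⟨⟨lt_of_coprime_primorial P e he2.2 hec, he1.2⟩, hec⟩
            · intro e _ _
              apply sum_nonneg; intro u _
              apply prod_nonneg; intro j _
              positivity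
    have hB : ∑ e ∈ (m.divisors.filter (fun e => 1 < e)).filter (fun e => ¬ e ≤ T),
          ∑ u ∈ (range e).filter (fun u => u.Coprime e), ∏ i, qq D (Wt tg s y R v i * ((u : ℝ) / e))
        ≤ 1 / 3 := by
      refine le_trans ?_ HB
      unfold Bsum
      calc ∑ e ∈ (m.divisors.filter (fun e => 1 < e)).filter (fun e => ¬ e ≤ T),
          ∑ u ∈ (range e).filter (fun u => u.Coprime e), ∏ i, qq D (Wt tg s y R v i * ((u : ℝ) / e))
          ≤ ∑ e ∈ (m.divisors.filter (fun e => 1 < e)).filter (fun e => ¬ e ≤ T),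
            ∑ u ∈ (range e).filter (fun u => u.Coprime e),
            ((1 / 2 : ℝ) * (QY D y (R 0 * ((u : ℝ) / e)) ^ 2 * QY D y (((v * R 2 : ℕ) : ℝ) * ((u : ℝ) / e)) ^ 2
      + QY D y (R 1 * ((u : ℝ) / e)) ^ 2 * QY D y (((v * R 3 : ℕ) : ℝ) * ((u : ℝ) / e)) ^ 2)) := by
            apply sum_le_sum; intro e _
            apply sum_le_sum; intro u _
            exact prod_le_B D tg s y R v _
        _ ≤ _ := by
            apply sum_le_sum_of_subset_of_nonneg
            · intro e he
              have he1 := mem_filter.mp he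
              have he2 := mem_filter.mp he1.1
              rw [mem_filter]
              exact ⟨he2.1, by omega⟩
            · intro e _ _
              apply sum_nonneg; intro u _
              positivity
    linarith
  have h4 := h2.trans h3
  have h5 : (0 : ℝ) ≤ (AllOm tA n D).card := by positivity
  calc ((AllOm tA n D).card : ℝ) * ∑ u ∈ Ioo 0 m, ∏ i, qq D (Wt tg s y R v i * ((u : ℝ) / m))
      ≤ (AllOm tA n D).card * (1 / 2) := mul_le_mul_of_nonneg_left h4 h5
    _ = _ := by ring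

/-- anti-concentration: few choices have a prescribed value -/
lemma anti_conc {tA n : ℕ} (D : Finset ℕ) (tg : Fin tA → Fin 2 → ℕ) (s : Fin tA → ℕ)
    (y : Fin n → ℕ) (R : Fin 4 → ℕ) (v : ℕ) (hR0 : 0 < R 0)
    (hinj : ∀ ω ∈ Om n D, ∀ ω' ∈ Om n D, ysum y ω = ysum y ω' → ω = ω') (c : ℕ) :
    ((AllOm tA n D).filter (fun ω => Xval (Wt tg s y R v) ω = c)).card * (Om n D).card
      ≤ (AllOm tA n D).card := by
  classical
  let J : Slot tA n → Prop := fun i => match i with
    | Sum.inl _ => False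
    | Sum.inr (k, _) => k = 0
  have hJd : DecidablePred J := Classical.decPred _
  let tgt : Finset (Slot tA n → ℕ) := Fintype.piFinset (fun i => if J i then {1} else D)
  have hmap : ((AllOm tA n D).filter (fun ω => Xval (Wt tg s y R v) ω = c)).card ≤ tgt.card := by
    apply card_le_card_of_injOn (fun ω i => if J i then 1 else ω i)
    · intro ω hω
      have hω1 := (mem_filter.mp hω).1
      have hω2 := Fintype.mem_piFinset.mp hω1
      rw [mem_coe, Fintype.mem_piFinset]
      intro i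
      by_cases hi : J i
      · simp [hi]
      · simp only [hi, if_false]
        exact hω2 i
    · intro ω hω ω' hω' h
      have hω1 := mem_filter.mp hω
      have hω2 := Fintype.mem_piFinset.mp hω1.1
      have hω1' := mem_filter.mp hω'
      have hω2' := Fintype.mem_piFinset.mp hω1'.1
      have hoff : ∀ i, ¬ J i → ω i = ω' i := by
        intro i hi
        have := congrFun h i
        simp only [hi, if_false] at this
        exact this
      have hX : Xval (Wt tg s y R v) ω = Xval (Wt tg s y R v) ω' := by rw [hω1.2, hω1'.2]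
      unfold Xval at hX
      rw [Fintype.sum_sum_type, Fintype.sum_sum_type] at hX
      have e1 : ∑ a, Wt tg s y R v (Sum.inl a) * ω (Sum.inl a)
          = ∑ a, Wt tg s y R v (Sum.inl a) * ω' (Sum.inl a) := by
        refine sum_congr rfl fun a _ => ?_
        rw [hoff (Sum.inl a) (fun h => h)]
      rw [e1] at hX
      have hX2 := Nat.add_left_cancel hX
      rw [Fintype.sum_prod_type, Fintype.sum_prod_type] at hX2
      rw [← add_sum_erase univ _ (mem_univ (0 : Fin 4)), ← add_sum_erase univ _ (mem_univ (0 : Fin 4))] at hX2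
      have e2 : ∑ k ∈ (univ : Finset (Fin 4)).erase 0, ∑ i, Wt tg s y R v (Sum.inr (k, i)) * ω (Sum.inr (k, i))
          = ∑ k ∈ (univ : Finset (Fin 4)).erase 0, ∑ i, Wt tg s y R v (Sum.inr (k, i)) * ω' (Sum.inr (k, i)) := by
        refine sum_congr rfl fun k hk => sum_congr rfl fun i _ => ?_
        rw [hoff (Sum.inr (k, i)) (fun h => (mem_erase.mp hk).1 h)]
      rw [e2] at hX2
      have hX3 := Nat.add_right_cancel hX2
      have e3 : ∀ ω : Slot tA n → ℕ, ∑ i, Wt tg s y R v (Sum.inr ((0 : Fin 4), i)) * ω (Sum.inr (0, i))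
          = R 0 * ysum y (fun i => ω (Sum.inr (0, i))) := by
        intro ω
        unfold ysum
        rw [mul_sum]
        refine sum_congr rfl fun i _ => ?_
        have : Wt tg s y R v (Sum.inr ((0 : Fin 4), i)) = R 0 * y i := rfl
        rw [this]
        ring
      rw [e3, e3] at hX3
      have hX4 := Nat.eq_of_mul_eq_mul_left hR0 hX3
      have hX5 := hinj (fun i => ω (Sum.inr (0, i))) (Fintype.mem_piFinset.mpr fun i => hω2 _)
        (fun i => ω' (Sum.inr (0, i))) (Fintype.mem_piFinset.mpr fun i => hω2' _) hX4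
      funext i
      by_cases hi : J i
      · rcases i with a | ⟨k, i⟩
        · exact absurd hi (fun h => h)
        · have hk : k = 0 := hi
          subst hk
          exact congrFun hX5 i
      · exact hoff i hi
  have hcard : tgt.card * (Om n D).card = (AllOm tA n D).card := by
    unfold AllOm Om
    simp only [tgt]
    rw [Fintype.card_piFinset, Fintype.card_piFinset, Fintype.card_piFinset]
    rw [Fintype.prod_sum_type, Fintype.prod_sum_type, Fintype.prod_prod_type (fun x : Fin 4 × Fin n => _),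
      Fintype.prod_prod_type (fun x : Fin 4 × Fin n => _)]
    rw [Fin.prod_univ_four, Fin.prod_univ_four]
    have j0 : ∀ a : Fin tA × Fin 2, J (Sum.inl a) = False := fun _ => rfl
    have j1 : ∀ i : Fin n, J (Sum.inr ((0 : Fin 4), i)) := fun _ => rfl
    have j2 : ∀ i : Fin n, ¬ J (Sum.inr ((1 : Fin 4), i)) := fun _ h => by
      have h' : (1 : Fin 4) = 0 := h
      exact absurd h' (by decide)
    have j3 : ∀ i : Fin n, ¬ J (Sum.inr ((2 : Fin 4), i)) := fun _ h => by
      have h' : (2 : Fin 4) = 0 := h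
      exact absurd h' (by decide)
    have j4 : ∀ i : Fin n, ¬ J (Sum.inr ((3 : Fin 4), i)) := fun _ h => by
      have h' : (3 : Fin 4) = 0 := h
      exact absurd h' (by decide)
    simp only [j0, j1, j2, j3, j4, if_true, if_false, card_singleton, prod_const_one, one_mul]
    ring
  calc _ ≤ tgt.card * (Om n D).card := Nat.mul_le_mul_right _ hmap
    _ = _ := hcard

end Vale.Agent.P012
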