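import Mathlib
import Vale.Agent.P012.Count

open Finset

namespace Vale.Agent.P012

/-- from a choice with `m ∣ X` to distinct unit fractions with sum `m / B` -/
lemma solve_one {ι : Type*} [Fintype ι] [DecidableEq ι] [Nonempty ι] (W ω : ι → ℕ) (B m : ℕ) (hB : 0 < B)
    (hm : 0 < m) (hW : ∀ i, 0 < W i * ω i) (hdiv : ∀ i, W i * ω i ∣ B)
    (hdist : ∀ i j, W i * ω i = W j * ω j → i = j) (hX : m ∣ ∑ i, W i * ω i) :
    ∃ S : Finset ℕ, S.card ≤ Fintype.card ι ∧ (∑ n ∈ S, (1 : ℚ) / n) = (m : ℚ) / B ∧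
      (∀ n ∈ S, 0 < n ∧ B ≤ n * m) ∧
      (∀ n ∈ S, ∃ i, n * m * (W i * ω i) = B * ∑ i, W i * ω i) := by
  classical
  obtain ⟨Q, hQ⟩ := hX
  have hXpos : 0 < ∑ i, W i * ω i := sum_pos (fun i _ => hW i) univ_nonempty
  have hQ0 : 0 < Q := by
    rcases Nat.eq_zero_or_pos Q with h | h
    · rw [h, mul_zero] at hQ; omega
    · exact h
  let den : ι → ℕ := fun i => B / (W i * ω i) * Q
  have hden : ∀ i, den i * (W i * ω i) = B * Q := by
    intro i
    have := Nat.div_mul_cancel (hdiv i)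
    calc den i * (W i * ω i) = (B / (W i * ω i) * (W i * ω i)) * Q := by simp only [den]; ring
      _ = B * Q := by rw [this]
  have hden0 : ∀ i, 0 < den i := by
    intro i
    rcases Nat.eq_zero_or_pos (den i) with h | h
    · have := hden i
      rw [h, zero_mul] at this
      have : 0 < B * Q := Nat.mul_pos hB hQ0
      omega
    · exact h
  have hinj : Function.Injective den := by
    intro i j hij
    apply hdist
    have h1 := hden i
    have h2 := hden j
    rw [hij] at h1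
    exact Nat.eq_of_mul_eq_mul_left (hden0 j) (h1.trans h2.symm)
  refine ⟨univ.image den, ?_, ?_, ?_, ?_⟩
  · exact card_image_le.trans (by rw [card_univ])
  · rw [sum_image (fun i _ j _ h => hinj h)]
    have h1 : ∀ i, (1 : ℚ) / (den i : ℚ) = ((W i * ω i : ℕ) : ℚ) / (B * Q : ℕ) := by
      intro i
      have h2 : ((den i : ℕ) : ℚ) * ((W i * ω i : ℕ) : ℚ) = ((B * Q : ℕ) : ℚ) := by
        exact_mod_cast hden i
      have h3 : ((den i : ℕ) : ℚ) ≠ 0 := by exact_mod_cast (hden0 i).ne'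
      have h4 : ((B * Q : ℕ) : ℚ) ≠ 0 := by
        have : 0 < B * Q := Nat.mul_pos hB hQ0
        exact_mod_cast this.ne'
      rw [div_eq_div_iff h3 h4, one_mul, ← h2]
      ring
    rw [sum_congr rfl fun i _ => h1 i, ← sum_div, ← Nat.cast_sum, hQ]
    have hB' : (B : ℚ) ≠ 0 := by exact_mod_cast hB.ne'
    have hQ' : (Q : ℚ) ≠ 0 := by exact_mod_cast hQ0.ne'
    push_cast
    field_simp
  · intro n hn
    obtain ⟨i, _, rfl⟩ := mem_image.mp hn
    refine ⟨hden0 i, ?_⟩
    have h1 : W i * ω i ≤ m * Q := by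
      rw [← hQ]
      exact single_le_sum (f := fun i => W i * ω i) (fun _ _ => Nat.zero_le _) (mem_univ i)
    have h2 := hden i
    have h3 : B * Q ≤ (den i * m) * Q := by
      calc B * Q = den i * (W i * ω i) := h2.symm
        _ ≤ den i * (m * Q) := Nat.mul_le_mul_left _ h1
        _ = _ := by ring
    exact Nat.le_of_mul_le_mul_right h3 hQ0
  · intro n hn
    obtain ⟨i, _, rfl⟩ := mem_image.mp hn
    refine ⟨i, ?_⟩
    rw [hQ]
    have h2 := hden i
    calc den i * m * (W i * ω i) = m * (den i * (W i * ω i)) := by ring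
      _ = m * (B * Q) := by rw [h2]
      _ = _ := by ring

lemma card_slot (tA n : ℕ) : Fintype.card (Slot tA n) = tA * 2 + 4 * n := by
  simp [Slot]

/-- combination of the two parts of the numerator -/
lemma two_part {tA n : ℕ} (D : Finset ℕ) (hDpos : ∀ g ∈ D, 0 < g) (tg : Fin tA → Fin 2 → ℕ)
    (s : Fin tA → ℕ) (y : Fin n → ℕ) (R : Fin 4 → ℕ) (v : ℕ) (hR0 : 0 < R 0) (hn : 0 < n)
    (hWpos : ∀ i, 0 < Wt tg s y R v i)
    (hinj : ∀ ω ∈ Om n D, ∀ ω' ∈ Om n D, ysum y ω = ysum y ω' → ω = ω')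
    (B m1 m2 : ℕ) (hB : 0 < B) (hm1 : 0 < m1) (hm2 : 0 < m2)
    (hdiv : ∀ i, ∀ g ∈ D, Wt tg s y R v i * g ∣ B)
    (hdist : ∀ i j, ∀ g ∈ D, ∀ g' ∈ D, Wt tg s y R v i * g = Wt tg s y R v j * g' → i = j)
    (hc1 : ((AllOm tA n D).card : ℝ) ≤ 2 * m1 *
      (((AllOm tA n D).filter (fun ω => m1 ∣ Xval (Wt tg s y R v) ω)).card : ℝ))
    (hc2 : ((AllOm tA n D).card : ℝ) ≤ 2 * m2 *
      (((AllOm tA n D).filter (fun ω => m2 ∣ Xval (Wt tg s y R v) ω)).card : ℝ))
    (hcard : 2 * m2 * ((tA * 2 + 4 * n) * ((tA * 2 + 4 * n) * D.card)) < (Om n D).card) :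
    ∃ S : Finset ℕ, S.card ≤ 2 * (tA * 2 + 4 * n) ∧
      (∑ k ∈ S, (1 : ℚ) / k) = ((m1 + m2 : ℕ) : ℚ) / B ∧
      (∀ k ∈ S, B ≤ k * m1 ∨ B ≤ k * m2) := by
  classical
  have hι : Nonempty (Slot tA n) := ⟨Sum.inr (0, ⟨0, hn⟩)⟩
  have hOm0 : 0 < (Om n D).card := by omega
  have hDne : D.Nonempty := by
    by_contra h
    rw [not_nonempty_iff_eq_empty] at h
    have : (Om n D).card = 0 := by
      unfold Om
      rw [Fintype.card_piFinset, h]
      simp only [card_empty, prod_const, card_univ, Fintype.card_fin]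
      exact zero_pow hn.ne'
    omega
  have hAll : 0 < (AllOm tA n D).card := by
    unfold AllOm
    rw [Fintype.card_piFinset]
    exact prod_pos fun _ _ => hDne.card_pos
  have hAll' : (0 : ℝ) < (AllOm tA n D).card := by exact_mod_cast hAll
  -- first part
  have hne1 : ((AllOm tA n D).filter (fun ω => m1 ∣ Xval (Wt tg s y R v) ω)).Nonempty := by
    by_contra h
    rw [not_nonempty_iff_eq_empty] at h
    rw [h] at hc1
    simp only [card_empty, Nat.cast_zero, mul_zero] at hc1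
    linarith
  obtain ⟨ω1, hω1⟩ := hne1
  have hω1a := mem_filter.mp hω1
  have hω1b := Fintype.mem_piFinset.mp hω1a.1
  obtain ⟨S1, hS1card, hS1sum, hS1a, _⟩ := solve_one (Wt tg s y R v) ω1 B m1 hB hm1
    (fun i => Nat.mul_pos (hWpos i) (hDpos _ (hω1b i))) (fun i => hdiv i _ (hω1b i))
    (fun i j h => hdist i j _ (hω1b i) _ (hω1b j) h) hω1a.2
  rw [card_slot] at hS1card
  -- the forbidden values
  set C : Finset ℕ := (S1 ×ˢ ((univ : Finset (Slot tA n)) ×ˢ D)).image
    (fun p => (p.1 * m2 * (Wt tg s y R v p.2.1 * p.2.2)) / B) with hC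
  have hCcard : C.card ≤ (tA * 2 + 4 * n) * ((tA * 2 + 4 * n) * D.card) := by
    refine card_image_le.trans ?_
    rw [card_product, card_product, card_univ, card_slot]
    exact Nat.mul_le_mul_right _ hS1card
  have hex : ∃ ω ∈ (AllOm tA n D).filter (fun ω => m2 ∣ Xval (Wt tg s y R v) ω),
      Xval (Wt tg s y R v) ω ∉ C := by
    by_contra hcon
    push Not at hcon
    have hsub : (AllOm tA n D).filter (fun ω => m2 ∣ Xval (Wt tg s y R v) ω)
        ⊆ C.biUnion (fun c => (AllOm tA n D).filter (fun ω => Xval (Wt tg s y R v) ω = c)) := by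
      intro ω hω
      rw [mem_biUnion]
      exact ⟨_, hcon ω hω, mem_filter.mpr ⟨(mem_filter.mp hω).1, rfl⟩⟩
    have h1 : ((AllOm tA n D).filter (fun ω => m2 ∣ Xval (Wt tg s y R v) ω)).card * (Om n D).card
        ≤ C.card * (AllOm tA n D).card := by
      calc ((AllOm tA n D).filter (fun ω => m2 ∣ Xval (Wt tg s y R v) ω)).card * (Om n D).card
          ≤ (∑ c ∈ C, ((AllOm tA n D).filter (fun ω => Xval (Wt tg s y R v) ω = c)).card) * (Om n D).card := by
            apply Nat.mul_le_mul_right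
            exact (card_le_card hsub).trans card_biUnion_le
        _ = ∑ c ∈ C, ((AllOm tA n D).filter (fun ω => Xval (Wt tg s y R v) ω = c)).card * (Om n D).card := by
            rw [sum_mul]
        _ ≤ ∑ c ∈ C, (AllOm tA n D).card := by
            apply sum_le_sum
            intro c _
            exact anti_conc D tg s y R v hR0 hinj c
        _ = _ := by rw [sum_const, smul_eq_mul]
    have h2 : (AllOm tA n D).card ≤ 2 * m2 *
      ((AllOm tA n D).filter (fun ω => m2 ∣ Xval (Wt tg s y R v) ω)).card := by exact_mod_cast hc2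
    have h3 : (AllOm tA n D).card * (Om n D).card ≤ (AllOm tA n D).card * (2 * m2 * C.card) := by
      calc (AllOm tA n D).card * (Om n D).card
          ≤ (2 * m2 * ((AllOm tA n D).filter (fun ω => m2 ∣ Xval (Wt tg s y R v) ω)).card) * (Om n D).card :=
            Nat.mul_le_mul_right _ h2
        _ = 2 * m2 * (((AllOm tA n D).filter (fun ω => m2 ∣ Xval (Wt tg s y R v) ω)).card * (Om n D).card) := by ring
        _ ≤ 2 * m2 * (C.card * (AllOm tA n D).card) := Nat.mul_le_mul_left _ h1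
        _ = _ := by ring
    have h4 := Nat.le_of_mul_le_mul_left h3 hAll
    have h5 : 2 * m2 * C.card ≤ 2 * m2 * ((tA * 2 + 4 * n) * ((tA * 2 + 4 * n) * D.card)) :=
      Nat.mul_le_mul_left _ hCcard
    omega
  obtain ⟨ω2, hω2, hω2C⟩ := hex
  have hω2a := mem_filter.mp hω2
  have hω2b := Fintype.mem_piFinset.mp hω2a.1
  obtain ⟨S2, hS2card, hS2sum, hS2a, hS2b⟩ := solve_one (Wt tg s y R v) ω2 B m2 hB hm2
    (fun i => Nat.mul_pos (hWpos i) (hDpos _ (hω2b i))) (fun i => hdiv i _ (hω2b i))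
    (fun i j h => hdist i j _ (hω2b i) _ (hω2b j) h) hω2a.2
  rw [card_slot] at hS2card
  have hdisj : Disjoint S1 S2 := by
    rw [Finset.disjoint_left]
    intro ν hν1 hν2
    obtain ⟨i, hi⟩ := hS2b ν hν2
    apply hω2C
    rw [hC, mem_image]
    refine ⟨(ν, (i, ω2 i)), ?_, ?_⟩
    · rw [mem_product, mem_product]
      exact ⟨hν1, mem_univ _, hω2b i⟩
    · simp only
      rw [hi]
      exact Nat.mul_div_cancel_left _ hB
  refine ⟨S1 ∪ S2, ?_, ?_, ?_⟩
  · refine (card_union_le _ _).trans ?_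
    omega
  · rw [sum_union hdisj, hS1sum, hS2sum]
    push_cast
    ring
  · intro k hk
    rcases mem_union.mp hk with h | h
    · exact Or.inl (hS1a k h).2
    · exact Or.inr (hS2a k h).2

end Vale.Agent.P012
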