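import Mathlib

open Finset

namespace Vale.Agent.P012

lemma ceil_step (A B : ℕ) (hA : 0 < A) (hAB : A < B) :
    B ≤ A * ((B + A - 1) / A) ∧ A * ((B + A - 1) / A) < B + A ∧ 2 ≤ (B + A - 1) / A ∧
      (B + A - 1) / A ≤ B := by
  set n := (B + A - 1) / A with hn
  have h1 : A * n ≤ B + A - 1 := Nat.mul_div_le _ _
  have h2 : B + A - 1 < A * (n + 1) := by
    rw [hn]
    exact Nat.lt_mul_div_succ _ hA
  have h2' : B + A - 1 < A * n + A := by
    rw [mul_add, mul_one] at h2
    exact h2
  refine ⟨by omega, by omega, ?_, ?_⟩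
  · by_contra h
    push Not at h
    have h3 : n ≤ 1 := by omega
    have h4 : A * n ≤ A * 1 := Nat.mul_le_mul_left _ h3
    omega
  · by_contra h
    push Not at h
    have h3 : A * (B + 1) ≤ A * n := Nat.mul_le_mul_left _ h
    have h4 : A * (B + 1) = A * B + A := by ring
    have h5 : 1 * B ≤ A * B := Nat.mul_le_mul_right _ hA
    omega

/-- the greedy states `(a_i, b_i)` -/
def gst (a b : ℕ) : ℕ → ℕ × ℕ
  | 0 => (a, b)
  | i + 1 => ((gst a b i).1 * (((gst a b i).2 + (gst a b i).1 - 1) / (gst a b i).1) - (gst a b i).2,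
              (gst a b i).2 * (((gst a b i).2 + (gst a b i).1 - 1) / (gst a b i).1))

/-- the greedy denominators -/
def gN (a b i : ℕ) : ℕ := ((gst a b i).2 + (gst a b i).1 - 1) / (gst a b i).1

lemma gst_succ_fst (a b i : ℕ) : (gst a b (i + 1)).1 = (gst a b i).1 * gN a b i - (gst a b i).2 := rfl

lemma gst_succ_snd (a b i : ℕ) : (gst a b (i + 1)).2 = (gst a b i).2 * gN a b i := rfl

lemma gst_snd (a b s : ℕ) : (gst a b s).2 = b * ∏ i ∈ range s, gN a b i := by
  induction s with
  | zero => simp [gst]
  | succ s ih => rw [gst_succ_snd, ih, prod_range_succ, mul_assoc]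

lemma greedy_inv (a b : ℕ) (ha : 0 < a) (hab : a < b) (s : ℕ) (hs : ∀ i < s, 0 < (gst a b i).1) :
    (gst a b s).2 ≤ b ^ (2 ^ s) ∧ 0 < (gst a b s).2 ∧
    (a : ℚ) / b = (∑ i ∈ range s, (1 : ℚ) / gN a b i) + ((gst a b s).1 : ℚ) / (gst a b s).2 ∧
    (gst a b s).1 + s ≤ a ∧ (gst a b s).1 < (gst a b s).2 ∧
    (∀ i < s, 2 ≤ gN a b i) ∧
    (∀ i < s, (gst a b s).1 * (gN a b i * (gN a b i - 1)) < (gst a b s).2) := by
  induction s with
  | zero =>
    have : 0 < b := by omega
    refine ⟨by simp [gst], by simpa [gst] using this, by simp [gst], by simp [gst], by simpa [gst] using hab,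
      by simp, by simp⟩
  | succ s ih =>
    obtain ⟨h1, h2, h3, h4, h5, h6, h7⟩ := ih (fun i hi => hs i (by omega))
    have hA : 0 < (gst a b s).1 := hs s (by omega)
    obtain ⟨c1, c2, c3, c4⟩ := ceil_step (gst a b s).1 (gst a b s).2 hA h5
    have hN : gN a b s = ((gst a b s).2 + (gst a b s).1 - 1) / (gst a b s).1 := rfl
    rw [← hN] at c1 c2 c3 c4
    rw [gst_succ_fst, gst_succ_snd]
    set A := (gst a b s).1 with hAdef
    set B := (gst a b s).2 with hBdef
    set n := gN a b s with hndef
    have hnew : (A * n - B) * (n * (n - 1)) < B * n := by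
      have e1 : A * (n - 1) < B := by
        have : A * (n - 1) = A * n - A := by rw [Nat.mul_sub, mul_one]
        omega
      have e2 : (A * n - B) * (n - 1) < B := by
        have e3 : (A * n - B) * (n - 1) + B * (n - 1) = A * n * (n - 1) := by
          rw [← Nat.add_mul, Nat.sub_add_cancel c1]
        have e4 : A * n * (n - 1) = A * (n - 1) * n := by ring
        have e5 : A * (n - 1) * n < B * n := Nat.mul_lt_mul_of_pos_right e1 (by omega)
        have e6 : B * n = B * (n - 1) + B := by
          conv_lhs => rw [show n = (n - 1) + 1 by omega]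
          ring
        omega
      calc (A * n - B) * (n * (n - 1)) = (A * n - B) * (n - 1) * n := by ring
        _ < B * n := Nat.mul_lt_mul_of_pos_right e2 (by omega)
    refine ⟨?_, ?_, ?_, ?_, ?_, ?_, ?_⟩
    · calc B * n ≤ B * B := Nat.mul_le_mul_left _ c4
        _ ≤ b ^ (2 ^ s) * b ^ (2 ^ s) := Nat.mul_le_mul h1 h1
        _ = b ^ (2 ^ (s + 1)) := by rw [← pow_add]; congr 1; ring
    · exact Nat.mul_pos h2 (by omega)
    · rw [sum_range_succ, h3, add_assoc]
      congr 1
      have hB' : (B : ℚ) ≠ 0 := by exact_mod_cast h2.ne'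
      have hn' : (n : ℚ) ≠ 0 := by
        have : 0 < n := by omega
        exact_mod_cast this.ne'
      rw [Nat.cast_sub c1]
      push_cast
      rw [← hndef]
      field_simp
      ring
    · omega
    · have e1 : A * n - B < A := by omega
      have e2 : B * 1 ≤ B * n := Nat.mul_le_mul_left _ (by omega)
      omega
    · intro i hi
      rcases Nat.lt_succ_iff_lt_or_eq.mp hi with h | h
      · exact h6 i h
      · rw [h]; exact c3
    · intro i hi
      rcases Nat.lt_succ_iff_lt_or_eq.mp hi with h | h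
      · have e1 := h7 i h
        have e2 : gN a b i * (gN a b i - 1) < n := by
          by_contra hcon
          push Not at hcon
          have := Nat.mul_le_mul_left A hcon
          omega
        have e3 : gN a b i * (gN a b i - 1) ≤ n * (n - 1) := by
          have : n * 1 ≤ n * (n - 1) := Nat.mul_le_mul_left _ (by omega)
          omega
        exact lt_of_le_of_lt (Nat.mul_le_mul_left _ e3) hnew
      · rw [h]
        exact hnew

lemma gN_lt (a b : ℕ) (ha : 0 < a) (hab : a < b) (i j : ℕ) (hij : i < j) (hs : ∀ i < j + 1, 0 < (gst a b i).1) :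
    gN a b i * (gN a b i - 1) < gN a b j := by
  obtain ⟨h1, h2, h3, h4, h5, h6, h7⟩ := greedy_inv a b ha hab j (fun i hi => hs i (by omega))
  have hA : 0 < (gst a b j).1 := hs j (by omega)
  obtain ⟨c1, c2, c3, c4⟩ := ceil_step (gst a b j).1 (gst a b j).2 hA h5
  have e1 := h7 i hij
  by_contra hcon
  push Not at hcon
  have := Nat.mul_le_mul_left (gst a b j).1 hcon
  have hN : gN a b j = ((gst a b j).2 + (gst a b j).1 - 1) / (gst a b j).1 := rfl
  rw [← hN] at c1
  omega

lemma gN_strict (a b : ℕ) (ha : 0 < a) (hab : a < b) (i j : ℕ) (hij : i < j)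
    (hs : ∀ i < j + 1, 0 < (gst a b i).1) : gN a b i < gN a b j := by
  have h1 := gN_lt a b ha hab i j hij hs
  obtain ⟨_, _, _, _, _, h6, _⟩ := greedy_inv a b ha hab j (fun i hi => hs i (by omega))
  have h2 := h6 i hij
  have : gN a b i * 1 ≤ gN a b i * (gN a b i - 1) := Nat.mul_le_mul_left _ (by omega)
  omega

/-- either a short greedy expansion, or many greedy steps are possible -/
lemma greedy_dichotomy (a b : ℕ) (ha : 0 < a) (hab : a < b) (s : ℕ) :
    (∃ S : Finset ℕ, S.card ≤ s ∧ (∀ n ∈ S, 2 ≤ n) ∧ (∑ n ∈ S, (1 : ℚ) / n) = (a : ℚ) / b) ∨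
    (∀ i ≤ s, 0 < (gst a b i).1) := by
  classical
  by_cases h : ∀ i ≤ s, 0 < (gst a b i).1
  · exact Or.inr h
  · left
    push Not at h
    have hex : ∃ i, (gst a b i).1 = 0 := by
      obtain ⟨i, _, hi⟩ := h
      exact ⟨i, by omega⟩
    set k := Nat.find hex with hk
    have hk0 : (gst a b k).1 = 0 := Nat.find_spec hex
    have hkmin : ∀ i < k, 0 < (gst a b i).1 := fun i hi => Nat.pos_of_ne_zero (Nat.find_min hex hi)
    have hks : k ≤ s := by
      obtain ⟨i, hi, hi2⟩ := h
      exact (Nat.find_min' hex (by omega)).trans hi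
    obtain ⟨h1, h2, h3, h4, h5, h6, h7⟩ := greedy_inv a b ha hab k hkmin
    have hinj : Set.InjOn (gN a b) (range k : Set ℕ) := by
      intro i hi j hj hij
      have hi' : i < k := by simpa using hi
      have hj' : j < k := by simpa using hj
      rcases lt_trichotomy i j with hlt | heq | hlt
      · have := gN_strict a b ha hab i j hlt (fun l hl => hkmin l (by omega))
        omega
      · exact heq
      · have := gN_strict a b ha hab j i hlt (fun l hl => hkmin l (by omega))
        omega
    refine ⟨(range k).image (gN a b), ?_, ?_, ?_⟩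
    · exact card_image_le.trans (by rw [card_range]; exact hks)
    · intro n hn
      obtain ⟨i, hi, rfl⟩ := mem_image.mp hn
      exact h6 i (mem_range.mp hi)
    · rw [sum_image (fun i hi j hj h => hinj hi hj h), h3, hk0]
      simp

end Vale.Agent.P012
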