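import Mathlib
import Vale.Agent.P012.Count
import Vale.Agent.P012.Greedy

open Finset

namespace Vale.Agent.P012

lemma gN_growth (a b : ℕ) (ha : 0 < a) (hab : a < b) (i : ℕ) (hs : ∀ j < i + 2, 0 < (gst a b j).1) :
    2 ^ (2 ^ i) + 1 ≤ gN a b (i + 1) := by
  induction i with
  | zero =>
    have h1 := gN_lt a b ha hab 0 1 (by norm_num) hs
    obtain ⟨_, _, _, _, _, h6, _⟩ := greedy_inv a b ha hab 1 (fun i hi => hs i (by omega))
    have h2 := h6 0 (by norm_num)
    have h3 : 2 * 1 ≤ gN a b 0 * (gN a b 0 - 1) := Nat.mul_le_mul h2 (by omega)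
    norm_num
    omega
  | succ i ih =>
    have h0 := ih (fun j hj => hs j (by omega))
    have h1 := gN_lt a b ha hab (i + 1) (i + 2) (by omega) hs
    have h2 : 2 ^ (2 ^ i) * 2 ^ (2 ^ i) ≤ gN a b (i + 1) * (gN a b (i + 1) - 1) :=
      Nat.mul_le_mul (by omega) (by omega)
    have h3 : 2 ^ (2 ^ (i + 1)) = 2 ^ (2 ^ i) * 2 ^ (2 ^ i) := by
      rw [← pow_add]; congr 1; ring
    rw [h3]
    have h4 : i + 1 + 1 = i + 2 := rfl
    rw [h4]
    omega

lemma junk_super (N : ℕ → ℕ) (W L : ℕ) (h0 : W < N 0) (hstep : ∀ k, k + 1 < L → N k * (N k - 1) < N (k + 1)) :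
    ∀ k, k < L → W * ∏ j ∈ range k, N j < N k := by
  intro k
  induction k with
  | zero => intro _; simpa using h0
  | succ k ih =>
    intro hk
    have h1 := ih (by omega)
    have h2 := hstep k hk
    rw [prod_range_succ]
    have h3 : N k * (W * ∏ j ∈ range k, N j) ≤ N k * (N k - 1) := Nat.mul_le_mul_left _ (by omega)
    calc W * ((∏ j ∈ range k, N j) * N k) = N k * (W * ∏ j ∈ range k, N j) := by ring
      _ ≤ N k * (N k - 1) := h3
      _ < N (k + 1) := h2

lemma prod_one_add_le (N : ℕ → ℕ) (k : ℕ) (hN : ∀ j < k, 1 ≤ N j) :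
    ∏ j ∈ range k, (1 + N j) ≤ 2 ^ k * ∏ j ∈ range k, N j := by
  calc ∏ j ∈ range k, (1 + N j) ≤ ∏ j ∈ range k, (2 * N j) := by
        apply prod_le_prod'
        intro j hj
        have := hN j (mem_range.mp hj)
        omega
    _ = _ := by rw [prod_mul_distrib, prod_const, card_range]

lemma exists_y (G : ℕ) (N : ℕ → ℕ) (K : ℕ) (hpos : ∀ k < K, 0 < N k)
    (hN : ∀ k < K, G * ∏ j ∈ range k, (1 + N j) < N k) :
    ∃ y : ℕ → ℕ, (∀ i < 2 ^ K, 0 < y i ∧ y i ∣ ∏ j ∈ range K, N j) ∧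
      (∀ i < 2 ^ K, G * ∑ j ∈ range i, y j < y i) ∧
      ∑ j ∈ range (2 ^ K), y j = ∏ j ∈ range K, (1 + N j) := by
  induction K with
  | zero =>
    refine ⟨fun _ => 1, ?_, ?_, ?_⟩
    · intro i _; simp
    · intro i hi
      have : i = 0 := by simpa using hi
      simp [this]
    · simp
  | succ K ih =>
    obtain ⟨y, h1, h2, h3⟩ := ih (fun k hk => hpos k (by omega)) (fun k hk => hN k (by omega))
    have hNK := hN K (by omega)
    have hNK0 := hpos K (by omega)
    have hs1 : ∀ i ≤ 2 ^ K, ∑ j ∈ range i, (if j < 2 ^ K then y j else N K * y (j - 2 ^ K))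
        = ∑ j ∈ range i, y j := by
      intro i hi
      apply sum_congr rfl
      intro j hj
      have := mem_range.mp hj
      rw [if_pos (by omega)]
    have hs2 : ∀ i', ∑ j ∈ range (2 ^ K + i'), (if j < 2 ^ K then y j else N K * y (j - 2 ^ K))
        = ∑ j ∈ range (2 ^ K), y j + N K * ∑ j ∈ range i', y j := by
      intro i'
      rw [sum_range_add, hs1 _ le_rfl, mul_sum]
      congr 1
      apply sum_congr rfl
      intro j _
      rw [if_neg (by omega)]
      congr 2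
      omega
    refine ⟨fun j => if j < 2 ^ K then y j else N K * y (j - 2 ^ K), ?_, ?_, ?_⟩
    · intro i hi
      rw [prod_range_succ]
      simp only
      split_ifs with hlt
      · exact ⟨(h1 i hlt).1, (h1 i hlt).2.trans (Dvd.intro _ rfl)⟩
      · have hi' : i - 2 ^ K < 2 ^ K := by
          rw [pow_succ] at hi; omega
        refine ⟨Nat.mul_pos hNK0 (h1 _ hi').1, ?_⟩
        rw [mul_comm]
        exact Nat.mul_dvd_mul_right (h1 _ hi').2 _
    · intro i hi
      simp only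
      split_ifs with hlt
      · rw [hs1 i hlt.le]
        exact h2 i hlt
      · have hi' : i - 2 ^ K < 2 ^ K := by
          rw [pow_succ] at hi; omega
        obtain ⟨i', rfl⟩ : ∃ i', i = 2 ^ K + i' := ⟨i - 2 ^ K, by omega⟩
        rw [Nat.add_sub_cancel_left] at hi' ⊢
        rw [hs2, h3]
        have e1 := h2 i' hi'
        have e2 : N K * (G * ∑ j ∈ range i', y j) ≤ N K * (y i' - 1) := Nat.mul_le_mul_left _ (by omega)
        have e3 : N K * (y i' - 1) + N K = N K * y i' := by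
          have : y i' = (y i' - 1) + 1 := by have := (h1 i' hi').1; omega
          conv_rhs => rw [this]
          ring
        calc G * (∏ j ∈ range K, (1 + N j) + N K * ∑ j ∈ range i', y j)
            = G * ∏ j ∈ range K, (1 + N j) + N K * (G * ∑ j ∈ range i', y j) := by ring
          _ < N K * y i' := by omega
    · rw [pow_succ, show 2 ^ K * 2 = 2 ^ K + 2 ^ K by ring, hs2, h3, prod_range_succ]
      ring

lemma ysum_inj (G : ℕ) (y : ℕ → ℕ) (n : ℕ) (hy : ∀ i < n, G * ∑ j ∈ range i, y j < y i)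
    (ω ω' : Fin n → ℕ) (h : ∀ i, ω i ≤ G) (h' : ∀ i, ω' i ≤ G)
    (heq : ∑ i : Fin n, y i * ω i = ∑ i : Fin n, y i * ω' i) : ω = ω' := by
  induction n with
  | zero => exact funext fun i => i.elim0
  | succ n ih =>
    rw [Fin.sum_univ_castSucc, Fin.sum_univ_castSucc] at heq
    have hb : ∀ ω : Fin (n + 1) → ℕ, (∀ i, ω i ≤ G) →
        ∑ i : Fin n, y (Fin.castSucc i : Fin (n + 1)) * ω (Fin.castSucc i) < y n := by
      intro ω hω
      refine lt_of_le_of_lt ?_ (hy n (by omega))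
      rw [mul_sum, ← Fin.sum_univ_eq_sum_range (fun j => G * y j) n]
      apply sum_le_sum
      intro i _
      rw [mul_comm]
      exact Nat.mul_le_mul_right _ (hω _)
    have hb1 := hb ω h
    have hb2 := hb ω' h'
    have hl : (Fin.last n : ℕ) = n := rfl
    rw [hl] at heq
    set s1 := ∑ i : Fin n, y (Fin.castSucc i : Fin (n + 1)) * ω (Fin.castSucc i) with hs1
    set s2 := ∑ i : Fin n, y (Fin.castSucc i : Fin (n + 1)) * ω' (Fin.castSucc i) with hs2
    have hy0 : 0 < y n := by omega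
    have e1 : (s1 + y n * ω (Fin.last n)) / y n = ω (Fin.last n) := by
      rw [Nat.add_mul_div_left _ _ hy0, Nat.div_eq_of_lt hb1, zero_add]
    have e2 : (s2 + y n * ω' (Fin.last n)) / y n = ω' (Fin.last n) := by
      rw [Nat.add_mul_div_left _ _ hy0, Nat.div_eq_of_lt hb2, zero_add]
    have e3 : ω (Fin.last n) = ω' (Fin.last n) := by rw [← e1, ← e2, heq]
    rw [e3] at heq
    have e4 : s1 = s2 := Nat.add_right_cancel heq
    have e5 := ih (fun i hi => hy i (by omega)) (fun i => ω (Fin.castSucc i))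
      (fun i => ω' (Fin.castSucc i)) (fun i => h _) (fun i => h' _) e4
    funext i
    refine Fin.lastCases e3 (fun j => ?_) i
    exact congrFun e5 j

lemma y_distinct (G : ℕ) (y : ℕ → ℕ) (n : ℕ) (hy : ∀ i < n, G * ∑ j ∈ range i, y j < y i)
    (i j : ℕ) (hi : i < n) (hj : j < n) (g g' : ℕ) (hg : 0 < g) (hg2 : g ≤ G) (hg' : 0 < g')
    (hg'2 : g' ≤ G) (h : y i * g = y j * g') : i = j := by
  have key : ∀ i j g g' : ℕ, i < n → 0 < g → g' ≤ G → j < i → y j * g' < y i * g := by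
    intro i j g g' hi hg hg' hji
    calc y j * g' ≤ y j * G := Nat.mul_le_mul_left _ hg'
      _ ≤ (∑ l ∈ range i, y l) * G := by
        apply Nat.mul_le_mul_right
        exact single_le_sum (f := y) (fun _ _ => Nat.zero_le _) (mem_range.mpr hji)
      _ = G * ∑ l ∈ range i, y l := mul_comm _ _
      _ < y i := hy i hi
      _ = y i * 1 := (mul_one _).symm
      _ ≤ y i * g := Nat.mul_le_mul_left _ hg
  rcases lt_trichotomy i j with hlt | heq | hlt
  · have := key j i g' g hj hg' hg2 hlt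
    omega
  · exact heq
  · have := key i j g g' hi hg hg'2 hlt
    omega

/-- distinctness of all terms -/
lemma slots_distinct {tA n : ℕ} (P L0 : ℕ) (hP : 2 ≤ P) (s : Fin tA → ℕ) (hs0 : ∀ j, 0 < s j)
    (hs : ∀ j, s j < 2 ^ L0) (y : ℕ → ℕ)
    (hy0 : ∀ i < n, 0 < y i)
    (hy : ∀ i < n, primorial P * ∑ j ∈ range i, y j < y i) (R : Fin 4 → ℕ) (v : ℕ) (hv : 0 < v)
    (hR0 : ∀ k, 0 < R k)
    (hR : ∀ k k' : Fin 4, k < k' → R k * (primorial P * ∑ j ∈ range n, y j) < R k')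
    (hA : ∀ (j : Fin tA) (c : Fin 2), 2 ^ ((L0 + 1) * (2 * (j : ℕ) + (c : ℕ))) * s j * primorial P < R 0) :
    ∀ i j, ∀ g ∈ (primorial P).divisors, ∀ g' ∈ (primorial P).divisors,
      Wt (fun (j : Fin tA) (c : Fin 2) => 2 ^ ((L0 + 1) * (2 * (j : ℕ) + (c : ℕ)))) s
        (fun i : Fin n => y i) R v i * g
      = Wt (fun (j : Fin tA) (c : Fin 2) => 2 ^ ((L0 + 1) * (2 * (j : ℕ) + (c : ℕ)))) s
        (fun i : Fin n => y i) R v j * g' → i = j := by
  have hG0 := primorial_pos P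
  have hgle : ∀ g ∈ (primorial P).divisors, 0 < g ∧ g ≤ primorial P := fun g hg =>
    ⟨Nat.pos_of_mem_divisors hg, Nat.divisor_le hg⟩
  -- A versus A
  have hAA : ∀ (j j' : Fin tA) (c c' : Fin 2) (g g' : ℕ), g ∈ (primorial P).divisors →
      g' ∈ (primorial P).divisors → 2 * (j : ℕ) + (c : ℕ) < 2 * (j' : ℕ) + (c' : ℕ) →
      2 ^ ((L0 + 1) * (2 * (j : ℕ) + (c : ℕ))) * s j * g
        ≠ 2 ^ ((L0 + 1) * (2 * (j' : ℕ) + (c' : ℕ))) * s j' * g' := by
    intro j j' c c' g g' hg hg' hlt heq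
    obtain ⟨d, hd⟩ : ∃ d, 2 * (j' : ℕ) + (c' : ℕ) = (2 * (j : ℕ) + (c : ℕ)) + (d + 1) :=
      ⟨2 * (j' : ℕ) + (c' : ℕ) - (2 * (j : ℕ) + (c : ℕ)) - 1, by omega⟩
    rw [hd] at heq
    have e1 : 2 ^ ((L0 + 1) * ((2 * (j : ℕ) + (c : ℕ)) + (d + 1)))
        = 2 ^ ((L0 + 1) * (2 * (j : ℕ) + (c : ℕ))) * (2 ^ (L0 + 1) * 2 ^ ((L0 + 1) * d)) := by
      rw [← pow_add, ← pow_add]; congr 1; ring
    rw [e1] at heq
    have e2 : 2 ^ ((L0 + 1) * (2 * (j : ℕ) + (c : ℕ))) * (s j * g)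
        = 2 ^ ((L0 + 1) * (2 * (j : ℕ) + (c : ℕ))) * (2 ^ (L0 + 1) * (2 ^ ((L0 + 1) * d) * s j' * g')) := by
      calc _ = 2 ^ ((L0 + 1) * (2 * (j : ℕ) + (c : ℕ))) * s j * g := by ring
        _ = _ := heq
        _ = _ := by ring
    have e3 := Nat.eq_of_mul_eq_mul_left (by positivity) e2
    have e4 : 2 ^ (L0 + 1) ∣ s j * g := Dvd.intro _ e3.symm
    have e5 := two_pow_dvd_of_dvd_mul P (s j) g L0 hP (Nat.dvd_of_mem_divisors hg) e4
    have e6 := Nat.le_of_dvd (hs0 j) e5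
    have e7 := hs j
    omega
  -- A versus B
  have hAB : ∀ (j : Fin tA) (c : Fin 2) (k : Fin 4) (i : Fin n) (g g' : ℕ), g ∈ (primorial P).divisors →
      g' ∈ (primorial P).divisors →
      2 ^ ((L0 + 1) * (2 * (j : ℕ) + (c : ℕ))) * s j * g < Cmul R v k * y i * g' := by
    intro j c k i g g' hg hg'
    have e1 : 2 ^ ((L0 + 1) * (2 * (j : ℕ) + (c : ℕ))) * s j * g
        ≤ 2 ^ ((L0 + 1) * (2 * (j : ℕ) + (c : ℕ))) * s j * primorial P :=
      Nat.mul_le_mul_left _ (hgle g hg).2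
    have e2 := hA j c
    have e3 : R 0 ≤ R k := by
      rcases eq_or_ne k 0 with h | h
      · rw [h]
      · have h1 := hR 0 k (Fin.pos_of_ne_zero h)
        have h2 : 0 < primorial P * ∑ j ∈ range n, y j := by
          apply Nat.mul_pos hG0
          apply sum_pos
          · intro l hl; exact hy0 l (mem_range.mp hl)
          · exact ⟨i, mem_range.mpr i.2⟩
        have h3 : R 0 * 1 ≤ R 0 * (primorial P * ∑ j ∈ range n, y j) := Nat.mul_le_mul_left _ h2
        omega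
    have e4 : R k ≤ Cmul R v k := by
      unfold Cmul
      split_ifs
      · exact le_rfl
      · exact Nat.le_mul_of_pos_left _ hv
    have e5 : Cmul R v k * (1 * 1) ≤ Cmul R v k * (y i * g') :=
      Nat.mul_le_mul_left _ (Nat.mul_le_mul (hy0 i i.2) (hgle g' hg').1)
    have e6 : Cmul R v k * (y i * g') = Cmul R v k * y i * g' := by ring
    omega
  have hCpos : ∀ k, 0 < Cmul R v k := by
    intro k
    unfold Cmul
    split_ifs
    · exact hR0 k
    · exact Nat.mul_pos hv (hR0 k)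
  -- B versus B
  have hC : ∀ k k' : Fin 4, k < k' →
      Cmul R v k * (primorial P * ∑ j ∈ range n, y j) < Cmul R v k' := by
    intro k k' hk
    have h1 := hR k k' hk
    unfold Cmul
    split_ifs with c1 c2 c2
    · exact h1
    · exact lt_of_lt_of_le h1 (Nat.le_mul_of_pos_left _ hv)
    · exfalso
      have : k.1 < k'.1 := hk
      omega
    · rw [mul_assoc]
      exact Nat.mul_lt_mul_of_pos_left h1 hv
  have hBB : ∀ (k k' : Fin 4) (i i' : Fin n) (g g' : ℕ), g ∈ (primorial P).divisors →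
      g' ∈ (primorial P).divisors → k < k' →
      Cmul R v k * y i * g < Cmul R v k' * y i' * g' := by
    intro k k' i i' g g' hg hg' hk
    have e1 := hC k k' hk
    have e2 : y i ≤ ∑ j ∈ range n, y j :=
      single_le_sum (f := y) (fun _ _ => Nat.zero_le _) (mem_range.mpr i.2)
    have e3 : Cmul R v k * y i * g ≤ Cmul R v k * (primorial P * ∑ j ∈ range n, y j) := by
      calc Cmul R v k * y i * g = Cmul R v k * (g * y i) := by ring
        _ ≤ _ := Nat.mul_le_mul_left _ (Nat.mul_le_mul (hgle g hg).2 e2)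
    have e5 : Cmul R v k' * (1 * 1) ≤ Cmul R v k' * (y i' * g') :=
      Nat.mul_le_mul_left _ (Nat.mul_le_mul (hy0 i' i'.2) (hgle g' hg').1)
    have e6 : Cmul R v k' * (y i' * g') = Cmul R v k' * y i' * g' := by ring
    omega
  intro i j g hg g' hg' h
  rcases i with ⟨j1, c1⟩ | ⟨k1, i1⟩ <;> rcases j with ⟨j2, c2⟩ | ⟨k2, i2⟩
  · have h' : 2 ^ ((L0 + 1) * (2 * (j1 : ℕ) + (c1 : ℕ))) * s j1 * g
        = 2 ^ ((L0 + 1) * (2 * (j2 : ℕ) + (c2 : ℕ))) * s j2 * g' := h
    rcases lt_trichotomy (2 * (j1 : ℕ) + (c1 : ℕ)) (2 * (j2 : ℕ) + (c2 : ℕ)) with hlt | heq | hlt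
    · exact absurd h' (hAA j1 j2 c1 c2 g g' hg hg' hlt)
    · have hc1 := c1.2
      have hc2 := c2.2
      have e1 : (j1 : ℕ) = j2 := by omega
      have e2 : (c1 : ℕ) = c2 := by omega
      rw [Fin.ext e1, Fin.ext e2]
    · exact absurd h'.symm (hAA j2 j1 c2 c1 g' g hg' hg hlt)
  · have h' : 2 ^ ((L0 + 1) * (2 * (j1 : ℕ) + (c1 : ℕ))) * s j1 * g = Cmul R v k2 * y i2 * g' := h
    have := hAB j1 c1 k2 i2 g g' hg hg'
    omega
  · have h' : Cmul R v k1 * y i1 * g = 2 ^ ((L0 + 1) * (2 * (j2 : ℕ) + (c2 : ℕ))) * s j2 * g' := h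
    have := hAB j2 c2 k1 i1 g' g hg' hg
    omega
  · have h' : Cmul R v k1 * y i1 * g = Cmul R v k2 * y i2 * g' := h
    rcases lt_trichotomy k1 k2 with hlt | heq | hlt
    · have := hBB k1 k2 i1 i2 g g' hg hg' hlt
      omega
    · subst heq
      have e1 : y i1 * g = y i2 * g' := by
        apply Nat.eq_of_mul_eq_mul_left (hCpos k1)
        rw [← mul_assoc, ← mul_assoc]
        exact h'
      have e2 := y_distinct (primorial P) y n hy i1 i2 i1.2 i2.2 g g' (hgle g hg).1 (hgle g hg).2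
        (hgle g' hg').1 (hgle g' hg').2 e1
      rw [Fin.ext e2]
    · have := hBB k2 k1 i2 i1 g' g hg' hg hlt
      omega

end Vale.Agent.P012
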