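import Mathlib
import Vale.Agent.P012.Junk

open Finset

namespace Vale.Agent.P012

lemma junk_struct (G W K : ℕ) (N : ℕ → ℕ) (h0 : W < N 0)
    (hstep : ∀ k, k + 1 < K + 4 → N k * (N k - 1) < N (k + 1)) (hW : G * 2 ^ K ≤ W) :
    ∃ y : ℕ → ℕ,
      (∀ i < 2 ^ K, 0 < y i) ∧
      (∀ i < 2 ^ K, G * ∑ j ∈ range i, y j < y i) ∧
      (∀ k k' : Fin 4, k < k' → N (K + k) * (G * ∑ j ∈ range (2 ^ K), y j) < N (K + k')) ∧
      W < N K ∧
      (∀ k : Fin 4, N (K + k) * (G * ∑ j ∈ range (2 ^ K), y j) ≤ G * 2 ^ K * ∏ j ∈ range (K + 4), N j) ∧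
      (∀ k : Fin 4, ∀ i < 2 ^ K, N (K + k) * y i ∣ ∏ j ∈ range (K + 4), N j) ∧
      (∀ k : Fin 4, 0 < N (K + k)) := by
  have hsup := junk_super N W (K + 4) h0 hstep
  have hpos : ∀ k < K + 4, 1 ≤ N k := fun k hk => by
    have := hsup k hk
    omega
  have hprod1 : ∀ k ≤ K + 4, 1 ≤ ∏ j ∈ range k, N j := by
    intro k hk
    apply Nat.succ_le_of_lt
    apply prod_pos
    intro j hj
    have := mem_range.mp hj
    exact hpos j (by omega)
  have hbnd : ∀ k ≤ K, G * ∏ j ∈ range k, (1 + N j) ≤ W * ∏ j ∈ range k, N j := by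
    intro k hk
    have h1 := prod_one_add_le N k (fun j hj => hpos j (by omega))
    calc G * ∏ j ∈ range k, (1 + N j) ≤ G * (2 ^ k * ∏ j ∈ range k, N j) := Nat.mul_le_mul_left _ h1
      _ = (G * 2 ^ k) * ∏ j ∈ range k, N j := by ring
      _ ≤ (G * 2 ^ K) * ∏ j ∈ range k, N j := by
        apply Nat.mul_le_mul_right
        apply Nat.mul_le_mul_left
        exact Nat.pow_le_pow_right (by norm_num) hk
      _ ≤ _ := Nat.mul_le_mul_right _ hW
  obtain ⟨y, hy1, hy2, hy3⟩ := exists_y G N K (fun k hk => hpos k (by omega))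
    (fun k hk => lt_of_le_of_lt (hbnd k hk.le) (hsup k (by omega)))
  have hins : ∀ (k : Fin 4) (L : ℕ), K + (k : ℕ) < L →
      N (K + k) * ∏ j ∈ range K, N j ∣ ∏ j ∈ range L, N j := by
    intro k L hL
    have e1 : N (K + k) * ∏ j ∈ range K, N j = ∏ j ∈ insert (K + (k : ℕ)) (range K), N j := by
      rw [prod_insert]
      simp
    rw [e1]
    apply prod_dvd_prod_of_subset
    intro x hx
    rw [mem_insert] at hx
    rw [mem_range]
    rcases hx with h | h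
    · omega
    · have := mem_range.mp h; omega
  refine ⟨y, fun i hi => (hy1 i hi).1, hy2, ?_, ?_, ?_, ?_, ?_⟩
  · intro k k' hk
    have hk' : (k : ℕ) < k' := hk
    have hk4 := k'.2
    rw [hy3]
    have e1 := Nat.le_of_dvd (hprod1 (K + k') (by omega)) (hins k (K + k') (by omega))
    calc N (K + k) * (G * ∏ j ∈ range K, (1 + N j))
        ≤ N (K + k) * (W * ∏ j ∈ range K, N j) := Nat.mul_le_mul_left _ (hbnd K le_rfl)
      _ = W * (N (K + k) * ∏ j ∈ range K, N j) := by ring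
      _ ≤ W * ∏ j ∈ range (K + k'), N j := Nat.mul_le_mul_left _ e1
      _ < N (K + k') := hsup _ (by omega)
  · have e1 := hsup K (by omega)
    have e2 := hprod1 K (by omega)
    have e3 : W * 1 ≤ W * ∏ j ∈ range K, N j := Nat.mul_le_mul_left _ e2
    omega
  · intro k
    have hk4 := k.2
    rw [hy3]
    have h1 := prod_one_add_le N K (fun j hj => hpos j (by omega))
    have e1 := Nat.le_of_dvd (hprod1 (K + 4) le_rfl) (hins k (K + 4) (by omega))
    calc N (K + k) * (G * ∏ j ∈ range K, (1 + N j))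
        ≤ N (K + k) * (G * (2 ^ K * ∏ j ∈ range K, N j)) :=
          Nat.mul_le_mul_left _ (Nat.mul_le_mul_left _ h1)
      _ = G * 2 ^ K * (N (K + k) * ∏ j ∈ range K, N j) := by ring
      _ ≤ _ := Nat.mul_le_mul_left _ e1
  · intro k i hi
    have hk4 := k.2
    exact (Nat.mul_dvd_mul_left _ (hy1 i hi).2).trans (hins k (K + 4) (by omega))
  · intro k
    have hk4 := k.2
    exact hpos _ (by omega)

lemma card_Om (n : ℕ) (D : Finset ℕ) : (Om n D).card = D.card ^ n := by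
  unfold Om
  rw [Fintype.card_piFinset]
  simp

lemma params (r : ℕ) (hr : 6 ≤ r) : ∃ q τ θ P : ℕ, q = 2 ^ r ∧ 64 ≤ q ∧ r < q ∧ P = 2 ^ (64 * q) ∧
    P = 65536 * q * τ ∧ τ = 16 * θ ∧ 3 * 2 ^ (60 * q) + 3 * 2 ^ (50 * q + r + 20) ≤ θ ∧
    2 ^ 11 * P < 2 ^ θ ∧ 16 * 2 ^ q ≤ P ∧ 64 * q + 11 < θ := by
  have hq64 : 64 ≤ 2 ^ r := by
    calc 64 = 2 ^ 6 := by norm_num
      _ ≤ 2 ^ r := Nat.pow_le_pow_right (by norm_num) hr
  have hrq : r < 2 ^ r := Nat.lt_two_pow_self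
  obtain ⟨q, hq⟩ : ∃ q, q = 2 ^ r := ⟨_, rfl⟩
  rw [← hq] at hq64 hrq
  have hθ : 3 * 2 ^ (60 * q) + 3 * 2 ^ (50 * q + r + 20) ≤ 2 ^ (64 * q - 20 - r) := by
    have h1 : 3 * 2 ^ (60 * q) ≤ 2 ^ (60 * q + 2) := by rw [pow_add]; omega
    have h2 : 3 * 2 ^ (50 * q + r + 20) ≤ 2 ^ (50 * q + r + 22) := by
      rw [show 50 * q + r + 22 = (50 * q + r + 20) + 2 by ring, pow_add 2 (50 * q + r + 20) 2]; omega
    have h3 : 2 ^ (60 * q + 2) ≤ 2 ^ (64 * q - 21 - r) := Nat.pow_le_pow_right (by norm_num) (by omega)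
    have h4 : 2 ^ (50 * q + r + 22) ≤ 2 ^ (64 * q - 21 - r) := Nat.pow_le_pow_right (by norm_num) (by omega)
    have h5 : 2 ^ (64 * q - 20 - r) = 2 ^ (64 * q - 21 - r) * 2 := by
      rw [← pow_succ]; congr 1; omega
    omega
  have hθ2 : 64 * q + 11 < 2 ^ (64 * q - 20 - r) := by
    have h1 : 60 * q < 2 ^ (60 * q) := Nat.lt_two_pow_self
    omega
  refine ⟨q, 2 ^ (64 * q - 16 - r), 2 ^ (64 * q - 20 - r), 2 ^ (64 * q), hq, hq64, hrq, rfl, ?_, ?_, hθ, ?_, ?_, hθ2⟩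
  · rw [show (65536 : ℕ) = 2 ^ 16 by norm_num]
    have e1 : 2 ^ 16 * q * 2 ^ (64 * q - 16 - r) = 2 ^ 16 * 2 ^ r * 2 ^ (64 * q - 16 - r) := by
      rw [← hq]
    rw [e1, ← pow_add, ← pow_add]
    congr 1
    omega
  · rw [show (16 : ℕ) = 2 ^ 4 by norm_num, ← pow_add]
    congr 1
    omega
  · rw [← pow_add]
    apply Nat.pow_lt_pow_right (by norm_num)
    omega
  · rw [show (16 : ℕ) = 2 ^ 4 by norm_num, ← pow_add]
    apply Nat.pow_le_pow_right (by norm_num)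
    omega

end Vale.Agent.P012
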