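import Mathlib
import Vale.Agent.P012.Struct
import Vale.Agent.P012.Numeric
import Vale.Agent.P012.Solve

open Finset

namespace Vale.Agent.P012

lemma choose_m1 (A L : ℕ) (hA : 1 < A) (hAL : A ≤ 2 ^ L) (Bad : Finset ℕ)
    (hbad : 2 * (Bad.card : ℝ) * (L + 1) < A) :
    ∃ m1, 0 < m1 ∧ m1 < A ∧ m1.Coprime A ∧ (A - m1).Coprime A ∧ m1 ∉ Bad ∧ A - m1 ∉ Bad := by
  classical
  have htot := totient_lower A L (by omega) hAL
  by_contra hcon
  push Not at hcon
  have hsub : (range A).filter (fun m => A.Coprime m) ⊆ Bad ∪ Bad.image (fun m => A - m) := by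
    intro m hm
    have hm1 := mem_filter.mp hm
    have hmA := mem_range.mp hm1.1
    have hm0 : 0 < m := by
      rcases Nat.eq_zero_or_pos m with h | h
      · rw [h, Nat.coprime_zero_right] at hm1
        omega
      · exact h
    have hc1 : m.Coprime A := hm1.2.symm
    have hc2 : (A - m).Coprime A := by
      rw [Nat.coprime_self_sub_left hmA.le]
      exact hc1
    rw [mem_union]
    by_cases hmB : m ∈ Bad
    · exact Or.inl hmB
    · right
      have := hcon m hm0 hmA hc1 hc2 hmB
      rw [mem_image]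
      exact ⟨A - m, this, by omega⟩
  have h1 : Nat.totient A ≤ 2 * Bad.card := by
    calc Nat.totient A = ((range A).filter (fun m => A.Coprime m)).card := rfl
      _ ≤ (Bad ∪ Bad.image (fun m => A - m)).card := card_le_card hsub
      _ ≤ Bad.card + (Bad.image (fun m => A - m)).card := card_union_le _ _
      _ ≤ Bad.card + Bad.card := Nat.add_le_add_left card_image_le _
      _ = _ := by ring
  have h2 : (Nat.totient A : ℝ) ≤ 2 * Bad.card := by exact_mod_cast h1
  have h3 : (0 : ℝ) ≤ (L : ℝ) + 1 := by positivity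
  have := mul_le_mul_of_nonneg_right h2 h3
  linarith

lemma card_Om_lower (q P n : ℕ) (hq : 64 ≤ q) (hP : P = 2 ^ (64 * q)) (hn : n = 4096 * q) :
    2 ^ (32 * P) ≤ (Om n (primorial P).divisors).card := by
  rw [card_Om, card_divisors_primorial, ← pow_mul]
  apply Nat.pow_le_pow_right (by norm_num)
  have h := pi_lower (64 * q) (by omega)
  rw [← hP] at h
  calc 32 * P ≤ 32 * (2 * (64 * q) * (Nat.primesLE P).card) := Nat.mul_le_mul_left _ h
    _ = (Nat.primesLE P).card * n := by rw [hn]; ring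

lemma hcard_lemma (q P n tA m : ℕ) (hq : 64 ≤ q) (hP : P = 2 ^ (64 * q)) (hn : n = 4096 * q)
    (htA : tA = 512 * q) (hPq : 65536 * q ≤ P) (hm : m ≤ 2 ^ (20 * P)) :
    2 * m * ((tA * 2 + 4 * n) * ((tA * 2 + 4 * n) * (primorial P).divisors.card))
      < (Om n (primorial P).divisors).card := by
  refine lt_of_lt_of_le ?_ (card_Om_lower q P n hq hP hn)
  have h1 : tA * 2 + 4 * n ≤ 2 ^ P := by
    have : P < 2 ^ P := Nat.lt_two_pow_self
    omega
  have h2 : (primorial P).divisors.card ≤ 2 ^ P := by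
    rw [card_divisors_primorial]
    exact Nat.pow_le_pow_right (by norm_num) (card_primesLE_le P)
  calc 2 * m * ((tA * 2 + 4 * n) * ((tA * 2 + 4 * n) * (primorial P).divisors.card))
      ≤ 2 * 2 ^ (20 * P) * (2 ^ P * (2 ^ P * 2 ^ P)) := by gcongr
    _ = 2 ^ (1 + 20 * P + P + P + P) := by
      rw [pow_add, pow_add, pow_add, pow_add, pow_one]; ring
    _ < 2 ^ (32 * P) := Nat.pow_lt_pow_right (by norm_num) (by omega)

end Vale.Agent.P012
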