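import Mathlib
import Vale.Agent.P012.Core

open Finset

namespace Vale.Agent.P012

/-- bound for the averaged badness of a block multiplier -/
lemma beta_bound (q r P θ T n Λ Fm : ℕ) (hθ : 3 * 2 ^ (60 * q) + 3 * 2 ^ (50 * q + r + 20) ≤ θ)
    (hT : (T : ℝ) = 2 ^ (16 * θ)) (hq : 64 ≤ q) (hΛ : Λ = 2 ^ (65 * q + r + 20)) (hFm : Fm ≤ 2 ^ Λ)
    (y : ℕ → ℕ) (R M : ℕ) (hR : 0 < R)
    (hy1 : ∀ i < n, primorial P * ∑ j ∈ range i, y j < y i)
    (hmax : R * (primorial P * ∑ j ∈ range n, y j) ≤ Fm) :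
    ∑ m ∈ Icc 1 M, Omega (primorial P).divisors (fun i : Fin n => y i) T m R
      ≤ M * (M / ((Om n (primorial P).divisors).card : ℝ) + (1 / 2) ^ θ) := by
  have hDne : (primorial P).divisors.Nonempty := ⟨1, Nat.one_mem_divisors.mpr (primorial_ne_zero P)⟩
  have hgle : ∀ g ∈ (primorial P).divisors, 0 < g ∧ g ≤ primorial P := fun g hg =>
    ⟨Nat.pos_of_mem_divisors hg, Nat.divisor_le hg⟩
  refine (sum_Omega_le (primorial P).divisors (fun i : Fin n => y i) T M R).trans ?_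
  refine mul_le_mul_of_nonneg_left ?_ (Nat.cast_nonneg M)
  have hY : 16 ≤ 2 ^ (60 * q) := by
    calc 16 = 2 ^ 4 := by norm_num
      _ ≤ 2 ^ (60 * q) := Nat.pow_le_pow_right (by norm_num) (by omega)
  have hTpos : (0 : ℝ) < T := by rw [hT]; positivity
  apply sum_kap_le (primorial P).divisors hDne (fun i : Fin n => y i) T M R Fm ((1 / 2) ^ θ)
  · intro F hF0 hF
    have h1 := rankin F Λ (2 ^ (60 * q)) (T : ℝ) hTpos hF0 (hF.trans hFm) hY
    have h2 := rk_bound θ q r (T : ℝ) hT hθ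
    rw [← hΛ] at h2
    exact h1.trans h2
  · exact hR
  · intro ω hω ω' hω' h
    have h1 := Fintype.mem_piFinset.mp hω
    have h2 := Fintype.mem_piFinset.mp hω'
    exact ysum_inj (primorial P) y n hy1 ω ω' (fun i => (hgle _ (h1 i)).2) (fun i => (hgle _ (h2 i)).2) h
  · intro ω hω
    have h1 := Fintype.mem_piFinset.mp hω
    refine le_trans ?_ hmax
    apply Nat.mul_le_mul_left
    unfold ysum
    rw [mul_sum, ← Fin.sum_univ_eq_sum_range (fun j => primorial P * y j) n]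
    apply sum_le_sum
    intro i _
    rw [mul_comm]
    exact Nat.mul_le_mul_right _ (hgle _ (h1 i)).2
  · positivity

lemma bad_count (θ P M Oc V T A B : ℕ) (hM : M ≤ 2 ^ (20 * P)) (hMA : M ≤ 2 * A) (hA : 0 < A)
    (hOm : 2 ^ (32 * P) ≤ Oc) (hV : V = 2 ^ (16 * P)) (hT : (T : ℝ) = 2 ^ (16 * θ)) (hθP : θ ≤ P)
    (hP : 2 ^ 11 * P < 2 ^ θ) (hP1 : 1 ≤ P)
    (hB : (B : ℝ) ≤ M * (4 * (M / (Oc : ℝ) + (1 / 2) ^ θ)
      + 3 * ((T : ℝ) ^ (-(1/4) : ℝ) + (M : ℝ) ^ ((3/4) : ℝ) / V))) :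
    2 * (B : ℝ) * (((20 * P : ℕ) : ℝ) + 1) < A := by
  have hM' : (M : ℝ) ≤ 2 ^ (20 * P) := by
    have : ((M : ℕ) : ℝ) ≤ ((2 ^ (20 * P) : ℕ) : ℝ) := Nat.cast_le.mpr hM
    rwa [Nat.cast_pow] at this
  have hOm' : (2 : ℝ) ^ (32 * P) ≤ Oc := by
    have : ((2 ^ (32 * P) : ℕ) : ℝ) ≤ (Oc : ℝ) := Nat.cast_le.mpr hOm
    rwa [Nat.cast_pow] at this
  have hV' : (V : ℝ) = 2 ^ (16 * P) := by
    rw [hV, Nat.cast_pow]; rfl
  have hnum := num_bad θ P (M : ℝ) (Oc : ℝ) (V : ℝ) (T : ℝ) ((1 / 2) ^ θ)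
    (Nat.cast_nonneg M) hM' hOm' hV' hT le_rfl hθP hP hP1
  have hMA' : (M : ℝ) ≤ 2 * A := by
    have : ((M : ℕ) : ℝ) ≤ ((2 * A : ℕ) : ℝ) := Nat.cast_le.mpr hMA
    rwa [Nat.cast_mul] at this
  clear hM hOm hV hT hP hθP hM' hOm' hV' hMA
  obtain ⟨X, hX⟩ : ∃ X : ℝ, X = 4 * ((M : ℝ) / (Oc : ℝ) + (1 / 2) ^ θ)
      + 3 * ((T : ℝ) ^ (-(1/4) : ℝ) + (M : ℝ) ^ ((3/4) : ℝ) / V) := ⟨_, rfl⟩
  rw [← hX] at hB hnum
  have hX0 : 0 ≤ X := by rw [hX]; positivity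
  have hA0 : (0 : ℝ) < A := by exact_mod_cast hA
  have h1 : (B : ℝ) ≤ 2 * A * X := hB.trans (mul_le_mul_of_nonneg_right hMA' hX0)
  have h2 : (0 : ℝ) ≤ ((20 * P : ℕ) : ℝ) + 1 := by positivity
  calc 2 * (B : ℝ) * (((20 * P : ℕ) : ℝ) + 1) ≤ 2 * (2 * A * X) * (((20 * P : ℕ) : ℝ) + 1) := by gcongr
    _ = A * (X * (4 * (20 * (P : ℝ) + 1))) := by push_cast; ring
    _ < A * 1 := mul_lt_mul_of_pos_left hnum hA0
    _ = A := mul_one _

theorem core (r : ℕ) (hr : 6 ≤ r) (a b : ℕ) (ha : 0 < a) (hab : a < b) (hb : b ≤ 2 ^ (2 ^ (2 ^ r))) :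
    ∃ S : Finset ℕ, S.card ≤ 40000 * 2 ^ r ∧ (∀ n ∈ S, 2 ≤ n) ∧
      (∑ n ∈ S, (1 : ℚ) / n) = (a : ℚ) / b := by
  classical
  obtain ⟨q, τ, θ, P, hq, hq64, hrq, hP, hPτ, hτθ, hθ, hPθ, hqP, hθ2⟩ := params r hr
  rw [← hq] at hb ⊢
  obtain ⟨K, hK⟩ : ∃ K, K = r + 12 := ⟨_, rfl⟩
  have hn : 2 ^ K = 4096 * q := by rw [hK, pow_add, ← hq]; ring
  obtain ⟨s0, hs0⟩ : ∃ s0, s0 = 64 * q + 3 := ⟨_, rfl⟩
  rcases greedy_dichotomy a b ha hab (s0 + (K + 4)) with h | hpos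
  · obtain ⟨S, h1, h2, h3⟩ := h
    exact ⟨S, by omega, h2, h3⟩
  -- basic facts about sizes
  have hτ1 : 1 ≤ τ := by omega
  have hx : q * 1 ≤ q * τ := Nat.mul_le_mul_left _ hτ1
  rw [mul_one] at hx
  have hPx : P = 65536 * (q * τ) := by rw [hPτ]; ring
  have hPq : 65536 * q ≤ P := by omega
  have hP2 : 2 ≤ P := by omega
  have hG0 := primorial_pos P
  have hG4 : primorial P ≤ 2 ^ (2 * P) := by
    have := primorial_le_four_pow P
    rw [pow_mul]
    exact_mod_cast this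
  -- the greedy data
  obtain ⟨g1, g2, g3, g4, g5, g6, g7⟩ := greedy_inv a b ha hab (s0 + (K + 4)) (fun i hi => hpos i hi.le)
  have hspos : 0 < (gst a b (s0 + (K + 4))).1 := hpos _ le_rfl
  obtain ⟨as, has⟩ : ∃ x, x = (gst a b (s0 + (K + 4))).1 := ⟨_, rfl⟩
  obtain ⟨bs, hbs⟩ : ∃ x, x = (gst a b (s0 + (K + 4))).2 := ⟨_, rfl⟩
  rw [← has, ← hbs] at g3
  rw [← has] at hspos g4
  rw [← has, ← hbs] at g5
  rw [← hbs] at g1 g2
  have g7' : ∀ i < s0 + (K + 4), as * (gN a b i * (gN a b i - 1)) < bs := by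
    intro i hi
    rw [has, hbs]
    exact g7 i hi
  -- junk structure
  obtain ⟨W, hW⟩ : ∃ W, W = 2 ^ (4 * P) := ⟨_, rfl⟩
  have hN0 : W < gN a b (s0 + 0) := by
    have h1 := gN_growth a b ha hab (64 * q + 2) (fun j hj => hpos j (by omega))
    have h2 : 2 ^ (64 * q + 2) = 4 * P := by rw [pow_add, ← hP]; ring
    rw [h2, ← hW] at h1
    rw [hs0, add_zero]
    have h3 : 64 * q + 3 = 64 * q + 2 + 1 := rfl
    rw [h3]
    omega
  have hKP : 2 ^ K ≤ 2 ^ P := Nat.pow_le_pow_right (by norm_num) (by omega)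
  have hGW : primorial P * 2 ^ K ≤ W := by
    rw [hW]
    calc primorial P * 2 ^ K ≤ 2 ^ (2 * P) * 2 ^ P := Nat.mul_le_mul hG4 hKP
      _ = 2 ^ (3 * P) := by rw [← pow_add]; congr 1; ring
      _ ≤ _ := Nat.pow_le_pow_right (by norm_num) (by omega)
  obtain ⟨y, hy0, hy1, hR, hWK, hRG, hRdvd, hRpos⟩ := junk_struct (primorial P) W K
    (fun k => gN a b (s0 + k)) hN0 (fun k hk => by
      have := gN_lt a b ha hab (s0 + k) (s0 + (k + 1)) (by omega) (fun i hi => hpos i (by omega))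
      exact this) hGW
  obtain ⟨n, hnK⟩ : ∃ n, n = 2 ^ K := ⟨_, rfl⟩
  rw [← hnK] at hn hy0 hy1 hR hRG hRdvd
  have hprodN : ∏ j ∈ range (K + 4), gN a b (s0 + j) ∣ bs := by
    rw [hbs, gst_snd, prod_range_add (fun i => gN a b i) s0 (K + 4)]
    exact ⟨b * ∏ i ∈ range s0, gN a b i, by ring⟩
  have hTc : ((2 ^ τ : ℕ) : ℝ) = 2 ^ (16 * θ) := by rw [hτθ]; exact Nat.cast_pow 2 (16 * θ)
  have hθP : θ ≤ P := by
    have h3 : τ ≤ q * τ := Nat.le_mul_of_pos_left _ (by omega)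
    omega
  -- small moduli multipliers
  obtain ⟨tA, htA⟩ : ∃ tA, tA = 512 * q := ⟨_, rfl⟩
  obtain ⟨L0, hL0⟩ : ∃ L0, L0 = 2 * τ + 1 := ⟨_, rfl⟩
  have hτbig : 64 * q + 11 < τ := by omega
  have h2τ : 2 * tA ≤ 2 ^ τ := by
    have h1 : 2 ^ (64 * q) ≤ 2 ^ τ := Nat.pow_le_pow_right (by norm_num) (by omega)
    rw [← hP] at h1
    omega
  have hTP : 2 ^ τ < P ^ ((Nat.primesLE P).card + 1) := by
    rw [hP, ← pow_mul]
    apply Nat.pow_lt_pow_right (by norm_num)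
    have h := pi_lower (64 * q) (by omega)
    rw [← hP] at h ⊢
    have h1 : 65536 * (q * τ) ≤ 128 * (q * (Nat.primesLE P).card) := by
      rw [← hPx]
      calc P ≤ 2 * (64 * q) * (Nat.primesLE P).card := h
        _ = _ := by ring
    have h2 : 512 * (q * τ) ≤ q * (Nat.primesLE P).card := by omega
    have h3 : τ ≤ q * τ := Nat.le_mul_of_pos_left _ (by omega)
    have h4 : 64 * q * ((Nat.primesLE P).card + 1) = 64 * (q * (Nat.primesLE P).card) + 64 * q := by ring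
    rw [h4]
    omega
  obtain ⟨s, hs1, hs2⟩ := exists_s P (64 * q) (2 ^ τ) ((2 ^ τ) ^ 2) tA hP (by omega) rfl (by omega) h2τ
    (Nat.two_pow_pos τ) hTP (fun j c => 2 ^ ((L0 + 1) * (2 * (j : ℕ) + (c : ℕ))))
    (fun j c e he => coprime_two_pow_of_coprime_primorial P e _ hP2 he)
  have hs0' : ∀ j, 0 < s j := fun j => (mem_Ioc.mp (hs1 j)).1
  have hsS : ∀ j, s j ≤ 2 ^ (2 * τ) := fun j => by
    have := (mem_Ioc.mp (hs1 j)).2
    rwa [← pow_mul, mul_comm] at this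
  have hsL : ∀ j, s j < 2 ^ L0 := fun j =>
    lt_of_le_of_lt (hsS j) (Nat.pow_lt_pow_right (by norm_num) (by omega))
  -- the exponent of two
  obtain ⟨E, hE⟩ : ∃ E, E = (L0 + 1) * (1024 * q) := ⟨_, rfl⟩
  have hEx : E = 2048 * (q * τ) + 2048 * q := by rw [hE, hL0]; ring
  have htagE : ∀ (j : Fin tA) (c : Fin 2), (L0 + 1) * (2 * (j : ℕ) + (c : ℕ)) ≤ E := by
    intro j c
    rw [hE]
    apply Nat.mul_le_mul_left
    have h1 := j.2
    have h2 := c.2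
    omega
  have hA : ∀ (j : Fin tA) (c : Fin 2),
      2 ^ ((L0 + 1) * (2 * (j : ℕ) + (c : ℕ))) * s j * primorial P < gN a b (s0 + (K + ((0 : Fin 4) : ℕ))) := by
    intro j c
    have h0 : ((0 : Fin 4) : ℕ) = 0 := rfl
    rw [h0, add_zero]
    refine lt_of_le_of_lt ?_ hWK
    rw [hW]
    calc 2 ^ ((L0 + 1) * (2 * (j : ℕ) + (c : ℕ))) * s j * primorial P
        ≤ 2 ^ E * 2 ^ (2 * τ) * 2 ^ (2 * P) := by
          apply Nat.mul_le_mul (Nat.mul_le_mul _ (hsS j)) hG4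
          exact Nat.pow_le_pow_right (by norm_num) (htagE j c)
      _ = 2 ^ (E + 2 * τ + 2 * P) := by rw [pow_add, pow_add]
      _ ≤ 2 ^ (4 * P) := by
          apply Nat.pow_le_pow_right (by norm_num)
          have h3 : τ ≤ q * τ := Nat.le_mul_of_pos_left _ (by omega)
          omega
  have hAle : ∀ j c, (fun (j : Fin tA) (c : Fin 2) => 2 ^ ((L0 + 1) * (2 * (j : ℕ) + (c : ℕ)))) j c = 2 ^ ((L0 + 1) * (2 * (j : ℕ) + (c : ℕ))) := fun _ _ => rfl
  -- the auxiliary factor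
  obtain ⟨Hc, hHc⟩ : ∃ Hc, Hc = primorial P * (∏ j, s j) * 2 ^ E := ⟨_, rfl⟩
  have hprods0 : 0 < ∏ j, s j := prod_pos fun j _ => hs0' j
  have hHc0 : 0 < Hc := by rw [hHc]; exact Nat.mul_pos (Nat.mul_pos hG0 hprods0) (Nat.two_pow_pos E)
  have hHcle : Hc ≤ 2 ^ (2 * P + 1024 * (q * τ) + E) := by
    rw [hHc, pow_add, pow_add]
    apply Nat.mul_le_mul_right
    apply Nat.mul_le_mul hG4
    calc ∏ j, s j ≤ ∏ j : Fin tA, 2 ^ (2 * τ) := prod_le_prod' fun j _ => hsS j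
      _ = 2 ^ (1024 * (q * τ)) := by
        rw [prod_const, card_univ, Fintype.card_fin, ← pow_mul, htA]
        congr 1; ring
  have hasle : as ≤ 2 ^ (2 ^ q) := by omega
  obtain ⟨V, hV⟩ : ∃ V, V = 2 ^ (16 * P) := ⟨_, rfl⟩
  have hV0 : 0 < V := by rw [hV]; exact Nat.two_pow_pos _
  obtain ⟨M, hM⟩ : ∃ M, M = 2 * (as * Hc * V) := ⟨_, rfl⟩
  have hMle : M ≤ 2 ^ (20 * P) := by
    rw [hM, hV]
    calc 2 * (as * Hc * 2 ^ (16 * P))
        ≤ 2 * (2 ^ (2 ^ q) * 2 ^ (2 * P + 1024 * (q * τ) + E) * 2 ^ (16 * P)) := by gcongr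
      _ = 2 ^ (1 + (2 ^ q) + (2 * P + 1024 * (q * τ) + E) + 16 * P) := by
        rw [pow_add 2 (1 + (2 ^ q) + (2 * P + 1024 * (q * τ) + E)), pow_add 2 (1 + 2 ^ q), pow_add 2 1]
        ring
      _ ≤ 2 ^ (20 * P) := by
        apply Nat.pow_le_pow_right (by norm_num)
        omega
  -- block data
  obtain ⟨R, hRdef⟩ : ∃ R : Fin 4 → ℕ, R = fun k : Fin 4 => gN a b (s0 + (K + (k : ℕ))) := ⟨_, rfl⟩
  have hRk : ∀ k : Fin 4, R k = gN a b (s0 + (K + (k : ℕ))) := fun k => by rw [hRdef]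
  obtain ⟨Λ, hΛ⟩ : ∃ Λ, Λ = 2 ^ (65 * q + r + 20) := ⟨_, rfl⟩
  have hbsle : bs ≤ 2 ^ (2 ^ (65 * q + r + 19)) := by
    calc bs ≤ b ^ (2 ^ (s0 + (K + 4))) := g1
      _ ≤ (2 ^ (2 ^ q)) ^ (2 ^ (s0 + (K + 4))) := Nat.pow_le_pow_left hb _
      _ = 2 ^ (2 ^ (65 * q + r + 19)) := by
        rw [← pow_mul, ← pow_add]
        congr 2
        omega
  have hmax : ∀ k, R k * (primorial P * ∑ j ∈ range n, y j) ≤ 2 ^ Λ := by
    intro k
    rw [hRk]
    refine (hRG k).trans ?_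
    have h1 : ∏ j ∈ range (K + 4), gN a b (s0 + j) ≤ bs := Nat.le_of_dvd g2 hprodN
    calc primorial P * n * ∏ j ∈ range (K + 4), gN a b (s0 + j)
        ≤ 2 ^ (2 * P) * 2 ^ P * 2 ^ (2 ^ (65 * q + r + 19)) := by
          apply Nat.mul_le_mul (Nat.mul_le_mul hG4 _) (h1.trans hbsle)
          rw [hnK]; exact hKP
      _ = 2 ^ (2 * P + P + 2 ^ (65 * q + r + 19)) := by
        rw [pow_add 2 (2 * P + P) (2 ^ (65 * q + r + 19)), pow_add 2 (2 * P) P]
      _ ≤ 2 ^ Λ := by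
        apply Nat.pow_le_pow_right (by norm_num)
        rw [hΛ]
        have h2 : 2 ^ (65 * q + r + 20) = 2 ^ (65 * q + r + 19) * 2 := by rw [← pow_succ]
        have h3 : 4 * P ≤ 2 ^ (65 * q + r + 19) := by
          rw [hP, show (4 : ℕ) = 2 ^ 2 by norm_num, ← pow_add]
          exact Nat.pow_le_pow_right (by norm_num) (by omega)
        omega
  have hR0 : ∀ k, 0 < R k := fun k => by rw [hRk]; exact hRpos k
  have hβ : ∀ k, ∑ m ∈ Icc 1 M, Omega (primorial P).divisors (fun i : Fin n => y i) (2 ^ τ) m (R k)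
      ≤ M * (M / ((Om n (primorial P).divisors).card : ℝ) + (1 / 2) ^ θ) := fun k =>
    beta_bound q r P θ (2 ^ τ) n Λ (2 ^ Λ) hθ hTc hq64 hΛ le_rfl y (R k) M (hR0 k) hy1 (hmax k)
  have hDne : (primorial P).divisors.Nonempty := ⟨1, Nat.one_mem_divisors.mpr (primorial_ne_zero P)⟩
  obtain ⟨v, hv, Bad, hBad, hBadB⟩ := exists_v (primorial P).divisors hDne (fun i : Fin n => y i) R (2 ^ τ) M V
    (Nat.two_pow_pos τ) hV0 _ hβ
  have hv1 := mem_Ioc.mp hv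
  have hv0 : 0 < v := by omega
  -- the numerator
  obtain ⟨A, hAdef⟩ : ∃ A, A = as * (Hc * v) := ⟨_, rfl⟩
  have hAM : A ≤ M := by
    rw [hAdef, hM]
    calc as * (Hc * v) ≤ as * (Hc * (V + V)) := by gcongr; exact hv1.2
      _ = _ := by ring
  have hMA : M ≤ 2 * A := by
    rw [hAdef, hM]
    calc 2 * (as * Hc * V) ≤ 2 * (as * Hc * v) := by gcongr; exact hv1.1.le
      _ = _ := by ring
  have hVA : V ≤ A := by
    rw [hAdef]
    calc V ≤ v := hv1.1.le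
      _ ≤ Hc * v := Nat.le_mul_of_pos_left _ hHc0
      _ ≤ as * (Hc * v) := Nat.le_mul_of_pos_left _ hspos
  have hA1 : 1 < A := by
    have : 2 ≤ V := by
      rw [hV]
      calc 2 = 2 ^ 1 := by norm_num
        _ ≤ _ := Nat.pow_le_pow_right (by norm_num) (by omega)
    omega
  have hbad2 : 2 * (Bad.card : ℝ) * (((20 * P : ℕ) : ℝ) + 1) < A :=
    bad_count θ P M (Om n (primorial P).divisors).card V (2 ^ τ) A Bad.card hMle hMA (by omega)
      (card_Om_lower q P n hq64 hP hn) hV hTc hθP hPθ (by omega) hBad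
  obtain ⟨m1, hm1pos, hm1A, hm1c, hm2c, hm1B, hm2B⟩ := choose_m1 A (20 * P) hA1 (hAM.trans hMle) Bad hbad2
  obtain ⟨m2, hm2def⟩ : ∃ m2, m2 = A - m1 := ⟨_, rfl⟩
  rw [← hm2def] at hm2c hm2B
  have hm2pos : 0 < m2 := by omega
  have hm12 : m1 + m2 = A := by omega
  have hGA : primorial P ∣ A := by
    rw [hAdef, hHc]
    exact Dvd.dvd.mul_left (Dvd.dvd.mul_right (Dvd.dvd.mul_right (Dvd.intro _ rfl) _) _) _
  have hc1 := count_main P (2 ^ τ) m1 v (fun (j : Fin tA) (c : Fin 2) => 2 ^ ((L0 + 1) * (2 * (j : ℕ) + (c : ℕ))))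
    s (fun i : Fin n => y i) R hm1pos (Nat.Coprime.coprime_dvd_right hGA hm1c) hs2
    (hBadB m1 (mem_Icc.mpr ⟨hm1pos, by omega⟩) hm1B)
  have hc2 := count_main P (2 ^ τ) m2 v (fun (j : Fin tA) (c : Fin 2) => 2 ^ ((L0 + 1) * (2 * (j : ℕ) + (c : ℕ))))
    s (fun i : Fin n => y i) R hm2pos (Nat.Coprime.coprime_dvd_right hGA hm2c) hs2
    (hBadB m2 (mem_Icc.mpr ⟨hm2pos, by omega⟩) hm2B)
  have hgle : ∀ g ∈ (primorial P).divisors, 0 < g ∧ g ≤ primorial P := fun g hg =>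
    ⟨Nat.pos_of_mem_divisors hg, Nat.divisor_le hg⟩
  have hinj : ∀ ω ∈ Om n (primorial P).divisors, ∀ ω' ∈ Om n (primorial P).divisors,
      ysum (fun i : Fin n => y i) ω = ysum (fun i : Fin n => y i) ω' → ω = ω' := by
    intro ω hω ω' hω' h
    have h1 := Fintype.mem_piFinset.mp hω
    have h2 := Fintype.mem_piFinset.mp hω'
    exact ysum_inj (primorial P) y n hy1 ω ω' (fun i => (hgle _ (h1 i)).2) (fun i => (hgle _ (h2 i)).2) h
  have hdist := slots_distinct (tA := tA) (n := n) P L0 hP2 s hs0' hsL y hy0 hy1 R v hv0 hR0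
    (fun k k' hk => by rw [hRk, hRk]; exact hR k k' hk) (fun j c => by rw [hRk]; exact hA j c)
  obtain ⟨B, hBdef⟩ : ∃ B, B = bs * (Hc * v) := ⟨_, rfl⟩
  have hB0 : 0 < B := by rw [hBdef]; exact Nat.mul_pos g2 (Nat.mul_pos hHc0 hv0)
  have hWpos : ∀ i, 0 < Wt (fun (j : Fin tA) (c : Fin 2) => 2 ^ ((L0 + 1) * (2 * (j : ℕ) + (c : ℕ)))) s
      (fun i : Fin n => y i) R v i := by
    intro i
    rcases i with ⟨j, c⟩ | ⟨k, i⟩
    · exact Nat.mul_pos (Nat.two_pow_pos _) (hs0' j)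
    · apply Nat.mul_pos _ (hy0 i i.2)
      unfold Cmul
      split_ifs
      · exact hR0 k
      · exact Nat.mul_pos hv0 (hR0 k)
  have hdiv : ∀ i, ∀ g ∈ (primorial P).divisors,
      Wt (fun (j : Fin tA) (c : Fin 2) => 2 ^ ((L0 + 1) * (2 * (j : ℕ) + (c : ℕ)))) s
      (fun i : Fin n => y i) R v i * g ∣ B := by
    intro i g hg
    have hgd := Nat.dvd_of_mem_divisors hg
    rcases i with ⟨j, c⟩ | ⟨k, i⟩
    · have h1 : 2 ^ ((L0 + 1) * (2 * (j : ℕ) + (c : ℕ))) * s j * g ∣ 2 ^ E * (∏ j, s j) * primorial P :=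
        Nat.mul_dvd_mul (Nat.mul_dvd_mul (Nat.pow_dvd_pow _ (htagE j c)) (dvd_prod_of_mem s (mem_univ j))) hgd
      have h2 : 2 ^ E * (∏ j, s j) * primorial P ∣ B := by
        rw [hBdef, hHc]
        exact ⟨bs * v, by ring⟩
      exact h1.trans h2
    · have h1 : gN a b (s0 + (K + (k : ℕ))) * y i ∣ bs := (hRdvd k i i.2).trans hprodN
      rw [← hRk] at h1
      have h2 : Cmul R v k ∣ v * R k := by
        unfold Cmul
        split_ifs
        · exact Dvd.intro_left _ rfl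
        · exact dvd_rfl
      have h3 : Cmul R v k * y i * g ∣ v * R k * y i * primorial P :=
        Nat.mul_dvd_mul (Nat.mul_dvd_mul_right h2 _) hgd
      have h4 : v * R k * y i * primorial P ∣ v * bs * primorial P := by
        apply Nat.mul_dvd_mul_right
        rw [mul_assoc]
        exact Nat.mul_dvd_mul_left _ h1
      have h5 : v * bs * primorial P ∣ B := by
        rw [hBdef, hHc]
        exact ⟨(∏ j, s j) * 2 ^ E, by ring⟩
      exact h3.trans (h4.trans h5)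
  have hn0 : 0 < n := by omega
  obtain ⟨S', hS'card, hS'sum, hS'B⟩ := two_part (primorial P).divisors (fun g hg => (hgle g hg).1)
    (fun (j : Fin tA) (c : Fin 2) => 2 ^ ((L0 + 1) * (2 * (j : ℕ) + (c : ℕ)))) s (fun i : Fin n => y i) R v
    (hR0 0) hn0 hWpos hinj B m1 m2 hB0 hm1pos hm2pos hdiv hdist hc1 hc2
    (hcard_lemma q P n tA m2 hq64 hP hn htA hPq (by omega))
  rw [hm12] at hS'sum
  -- all new denominators are larger than the greedy ones
  have hbig : ∀ k ∈ S', ∀ i < s0 + (K + 4), gN a b i < k := by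
    intro k hk i hi
    have h1 : B ≤ k * A := by
      rcases hS'B k hk with h | h
      · exact h.trans (Nat.mul_le_mul_left _ (by omega))
      · exact h.trans (Nat.mul_le_mul_left _ (by omega))
    have h2 : gN a b i * A < B := by
      have e1 := g7' i hi
      have e2 := g6 i hi
      have e3 : gN a b i * 1 ≤ gN a b i * (gN a b i - 1) := Nat.mul_le_mul_left _ (by omega)
      have e4 : as * gN a b i < bs := by
        refine lt_of_le_of_lt (Nat.mul_le_mul_left _ ?_) e1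
        omega
      rw [hAdef, hBdef]
      calc gN a b i * (as * (Hc * v)) = (as * gN a b i) * (Hc * v) := by ring
        _ < bs * (Hc * v) := Nat.mul_lt_mul_of_pos_right e4 (Nat.mul_pos hHc0 hv0)
    have h3 : gN a b i * A < k * A := lt_of_lt_of_le h2 h1
    exact Nat.lt_of_mul_lt_mul_right h3
  have hinjN : Set.InjOn (gN a b) (range (s0 + (K + 4)) : Set ℕ) := by
    intro i hi j hj hij
    have hi' : i < s0 + (K + 4) := by simpa using hi
    have hj' : j < s0 + (K + 4) := by simpa using hj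
    rcases lt_trichotomy i j with hlt | heq | hlt
    · have := gN_strict a b ha hab i j hlt (fun l hl => hpos l (by omega))
      omega
    · exact heq
    · have := gN_strict a b ha hab j i hlt (fun l hl => hpos l (by omega))
      omega
  refine ⟨(range (s0 + (K + 4))).image (gN a b) ∪ S', ?_, ?_, ?_⟩
  · refine (card_union_le _ _).trans ?_
    have h1 : ((range (s0 + (K + 4))).image (gN a b)).card ≤ s0 + (K + 4) :=
      card_image_le.trans (by rw [card_range])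
    omega
  · intro k hk
    rcases mem_union.mp hk with h | h
    · obtain ⟨i, hi, rfl⟩ := mem_image.mp h
      exact g6 i (mem_range.mp hi)
    · have h1 := hbig k h 0 (by omega)
      have h2 := g6 0 (by omega)
      omega
  · have hdisj : Disjoint ((range (s0 + (K + 4))).image (gN a b)) S' := by
      rw [Finset.disjoint_left]
      intro k hk hk'
      obtain ⟨i, hi, rfl⟩ := mem_image.mp hk
      exact lt_irrefl _ (hbig _ hk' i (mem_range.mp hi))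
    rw [sum_union hdisj, sum_image (fun i hi j hj h => hinjN hi hj h), hS'sum, g3]
    congr 1
    rw [hAdef, hBdef]
    have e1 : ((Hc * v : ℕ) : ℚ) ≠ 0 := by
      have : 0 < Hc * v := Nat.mul_pos hHc0 hv0
      exact_mod_cast this.ne'
    have e2 : ((bs : ℕ) : ℚ) ≠ 0 := by exact_mod_cast g2.ne'
    rw [Nat.cast_mul as, Nat.cast_mul bs]
    field_simp

end Vale.Agent.P012
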