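import Mathlib

open Finset

namespace Vale.Agent.P012

/-- a sum of `k` unit fractions that stays below `p/q` stays away from `p/q` -/
lemma lower_aux (K : ℕ) (hK : 1 ≤ K) : ∀ k ≤ K, ∀ S : Finset ℕ, S.card = k → (∀ n ∈ S, 0 < n) →
    ∀ p q : ℕ, 0 < q → ∑ n ∈ S, (1 : ℚ) / n < (p : ℚ) / q →
    (1 : ℚ) / (2 * K * q) ^ (2 ^ k) ≤ (p : ℚ) / q - ∑ n ∈ S, (1 : ℚ) / n := by
  intro k
  induction k with
  | zero =>
    intro _ S hS hpos p q hq hlt
    rw [card_eq_zero] at hS
    subst hS
    simp only [sum_empty, sub_zero, pow_zero, pow_one] at hlt ⊢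
    have hq' : (0 : ℚ) < q := by exact_mod_cast hq
    have hp : (1 : ℚ) ≤ p := by
      have h1 : (0 : ℚ) < p := by
        by_contra h
        push Not at h
        have : (p : ℚ) / q ≤ 0 := div_nonpos_of_nonpos_of_nonneg h hq'.le
        linarith
      have h2 : 0 < p := by exact_mod_cast h1
      exact_mod_cast h2
    have hK' : (1 : ℚ) ≤ K := by exact_mod_cast hK
    rw [div_le_div_iff₀ (by positivity) hq']
    nlinarith [mul_pos hq' hq', mul_le_mul hK' hp (by norm_num) (by positivity)]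
  | succ k ih =>
    intro hk S hS hpos p q hq hlt
    have hq' : (0 : ℚ) < q := by exact_mod_cast hq
    have hq1 : (1 : ℚ) ≤ q := by exact_mod_cast hq
    have hK' : (1 : ℚ) ≤ K := by exact_mod_cast hK
    have hσ0 : 0 ≤ ∑ n ∈ S, (1 : ℚ) / n := sum_nonneg fun n _ => by positivity
    have hp : (1 : ℚ) ≤ p := by
      have h1 : (0 : ℚ) < p := by
        by_contra h
        push Not at h
        have : (p : ℚ) / q ≤ 0 := div_nonpos_of_nonpos_of_nonneg h hq'.le
        linarith
      have h2 : 0 < p := by exact_mod_cast h1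
      exact_mod_cast h2
    have hbase : (1 : ℚ) ≤ 2 * K * q := by nlinarith
    by_cases hcase : ∑ n ∈ S, (1 : ℚ) / n ≤ (p : ℚ) / q / 2
    · have h1 : (1 : ℚ) / (2 * q) ≤ (p : ℚ) / q - ∑ n ∈ S, (1 : ℚ) / n := by
        have : (1 : ℚ) / (2 * q) ≤ (p : ℚ) / q / 2 := by
          rw [div_div, mul_comm (q : ℚ) 2]
          gcongr
        linarith
      refine le_trans ?_ h1
      apply one_div_le_one_div_of_le (by positivity)
      calc (2 : ℚ) * q ≤ 2 * K * q := by nlinarith
        _ = (2 * K * q) ^ 1 := (pow_one _).symm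
        _ ≤ (2 * K * q) ^ (2 ^ (k + 1)) := pow_le_pow_right₀ hbase Nat.one_le_two_pow
    · push Not at hcase
      have hex : ∃ n ∈ S, (n : ℚ) ≤ 2 * K * q := by
        by_contra hcon
        push Not at hcon
        have h1 : ∑ n ∈ S, (1 : ℚ) / n ≤ ∑ n ∈ S, (1 : ℚ) / (2 * K * q) := by
          apply sum_le_sum
          intro n hn
          apply one_div_le_one_div_of_le (by positivity) (hcon n hn).le
        rw [sum_const, nsmul_eq_mul, hS] at h1
        have h2 : ((k + 1 : ℕ) : ℚ) * (1 / (2 * K * q)) ≤ 1 / (2 * q) := by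
          have : ((k + 1 : ℕ) : ℚ) ≤ K := by exact_mod_cast hk
          calc ((k + 1 : ℕ) : ℚ) * (1 / (2 * K * q)) ≤ K * (1 / (2 * K * q)) := by gcongr
            _ = 1 / (2 * q) := by field_simp
        have h3 : (1 : ℚ) / (2 * q) ≤ (p : ℚ) / q / 2 := by
          rw [div_div, mul_comm (q : ℚ) 2]
          gcongr
        linarith
      obtain ⟨n, hn, hn2⟩ := hex
      have hn0 := hpos n hn
      have hn0' : (0 : ℚ) < n := by exact_mod_cast hn0
      have hsplit : ∑ m ∈ S, (1 : ℚ) / m = 1 / n + ∑ m ∈ S.erase n, (1 : ℚ) / m :=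
        (add_sum_erase S (fun m => (1 : ℚ) / m) hn).symm
      have hE0 : 0 ≤ ∑ m ∈ S.erase n, (1 : ℚ) / m := sum_nonneg fun m _ => by positivity
      have hpn : q ≤ p * n := by
        have h1 : (1 : ℚ) / n < (p : ℚ) / q := by linarith
        rw [div_lt_div_iff₀ hn0' hq', one_mul] at h1
        have h2 : q < p * n := by exact_mod_cast h1
        exact h2.le
      have hfrac : (((p * n - q : ℕ) : ℚ)) / ((q * n : ℕ) : ℚ) = (p : ℚ) / q - 1 / n := by
        rw [Nat.cast_sub hpn]
        push_cast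
        field_simp
      have ih2 := ih (by omega) (S.erase n) (by rw [card_erase_of_mem hn, hS]; rfl)
        (fun m hm => hpos m (mem_of_mem_erase hm)) (p * n - q) (q * n) (Nat.mul_pos hq hn0)
        (by rw [hfrac]; linarith)
      rw [hfrac] at ih2
      have hgoal : (p : ℚ) / q - ∑ m ∈ S, (1 : ℚ) / m
          = (p : ℚ) / q - 1 / n - ∑ m ∈ S.erase n, (1 : ℚ) / m := by
        rw [hsplit]; ring
      rw [hgoal]
      refine le_trans ?_ ih2
      apply one_div_le_one_div_of_le
      · positivity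
      · rw [pow_succ 2 k, mul_comm (2 ^ k) 2, pow_mul]
        apply pow_le_pow_left₀ (by positivity)
        push_cast
        have : (2 * (K : ℚ) * q) ^ 2 = 2 * K * (q * (2 * K * q)) := by ring
        rw [this]
        gcongr

theorem lower_bound : ∃ c : ℝ, 0 < c ∧ ∀ b : ℕ, 3 ≤ b → ∀ S : Finset ℕ, (∀ n ∈ S, 2 ≤ n) →
    (∑ n ∈ S, (1 : ℚ) / n) = ((b - 1 : ℕ) : ℚ) / b → c * Real.log (Real.log b) ≤ S.card := by
  refine ⟨1 / 3, by norm_num, ?_⟩
  intro b hb S hS hsum
  have hb' : (0 : ℚ) < b := by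
    have : 0 < b := by omega
    exact_mod_cast this
  have hk : 1 ≤ S.card := by
    by_contra h
    have h0 : S.card = 0 := by omega
    rw [card_eq_zero] at h0
    rw [h0, sum_empty] at hsum
    have h1 : (0 : ℚ) < ((b - 1 : ℕ) : ℚ) / b := by
      apply div_pos _ hb'
      have : 0 < b - 1 := by omega
      exact_mod_cast this
    linarith
  have hcast : ((b - 1 : ℕ) : ℚ) = b - 1 := by
    rw [Nat.cast_sub (by omega)]
    norm_num
  have hsum' : ∑ n ∈ S, (1 : ℚ) / n = 1 - 1 / b := by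
    rw [hsum, hcast]
    field_simp
  have h1 := lower_aux S.card hk S.card le_rfl S rfl (fun n hn => by have := hS n hn; omega) 1 1 (by norm_num)
    (by
      rw [hsum']
      have : (0 : ℚ) < 1 / b := by positivity
      norm_num
      exact_mod_cast (by omega : 0 < b))
  rw [hsum'] at h1
  norm_num at h1
  have h2 : (b : ℚ) ≤ (2 * S.card) ^ (2 ^ S.card) := by
    have hpos : (0 : ℚ) < (2 * (S.card : ℚ)) ^ (2 ^ S.card) := by
      have : (0 : ℚ) < S.card := by exact_mod_cast hk
      positivity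
    exact (inv_le_inv₀ hpos hb').mp h1
  have h3 : (b : ℝ) ≤ (2 * (S.card : ℝ)) ^ (2 ^ S.card) := by exact_mod_cast h2
  set k := S.card with hkdef
  have hk' : (1 : ℝ) ≤ k := by exact_mod_cast hk
  have hbR : (3 : ℝ) ≤ b := by exact_mod_cast hb
  have hlogb : 1 < Real.log b := by
    have : Real.log 3 ≤ Real.log b := Real.log_le_log (by norm_num) hbR
    have h4 : (1 : ℝ) < Real.log 3 := by
      rw [Real.lt_log_iff_exp_lt (by norm_num)]
      exact lt_trans Real.exp_one_lt_d9 (by norm_num)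
    linarith
  have h4 : Real.log b ≤ 2 ^ k * (2 * k) := by
    calc Real.log b ≤ Real.log ((2 * (k : ℝ)) ^ (2 ^ k)) := Real.log_le_log (by linarith) h3
      _ = (2 ^ k : ℕ) * Real.log (2 * k) := by rw [Real.log_pow]
      _ ≤ 2 ^ k * (2 * k) := by
        push_cast
        have : Real.log (2 * k) ≤ 2 * k := (Real.log_le_sub_one_of_pos (by positivity)).trans (by linarith)
        gcongr
  have h5 : Real.log b ≤ 2 ^ (3 * k) := by
    have e1 : (2 * (k : ℝ)) ≤ 2 ^ (2 * k) := by
      have e2 : (k : ℝ) ≤ 2 ^ k := by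
        have : k < 2 ^ k := Nat.lt_two_pow_self
        exact_mod_cast this.le
      have e3 : (2 : ℝ) ≤ 2 ^ k := by
        calc (2 : ℝ) = 2 ^ 1 := by norm_num
          _ ≤ 2 ^ k := pow_le_pow_right₀ (by norm_num) hk
      have e4 : (2 : ℝ) ^ (2 * k) = 2 ^ k * 2 ^ k := by rw [two_mul, pow_add]
      rw [e4]
      nlinarith
    calc Real.log b ≤ 2 ^ k * (2 * k) := h4
      _ ≤ 2 ^ k * 2 ^ (2 * k) := by gcongr
      _ = 2 ^ (3 * k) := by rw [← pow_add]; congr 1; ring
  have h6 : Real.log (Real.log b) ≤ 3 * k := by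
    calc Real.log (Real.log b) ≤ Real.log (2 ^ (3 * k)) := Real.log_le_log (by linarith) h5
      _ = (3 * k : ℕ) * Real.log 2 := by rw [Real.log_pow]
      _ ≤ (3 * k : ℕ) * 1 := by
        have := Real.log_two_lt_d9
        gcongr
        linarith
      _ = 3 * k := by push_cast; ring
  linarith

end Vale.Agent.P012
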