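import Mathlib
import Vale.Agent.P012.Core2

open Finset

namespace Vale.Agent.P012

lemma tendsto_loglog : Filter.Tendsto (fun b : ℕ => Real.log (Real.log (b : ℝ))) Filter.atTop Filter.atTop :=
  Real.tendsto_log_atTop.comp (Real.tendsto_log_atTop.comp tendsto_natCast_atTop_atTop)

theorem upper_pointwise (b : ℕ) (y : ℝ) (hy : y = Real.log (Real.log b)) (hy64 : 64 ≤ y) (a : ℕ)
    (ha : 0 < a) (hab : a < b) :
    ∃ S : Finset ℕ, (S.card : ℝ) ≤ 240000 * y ∧ (∀ n ∈ S, 2 ≤ n) ∧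
      (∑ n ∈ S, (1 : ℚ) / n) = (a : ℚ) / b := by
  obtain ⟨N, hN⟩ : ∃ N, N = ⌈2 * y⌉₊ := ⟨_, rfl⟩
  have hN1 : 2 * y ≤ N := by rw [hN]; exact Nat.le_ceil _
  have hN2 : (N : ℝ) ≤ 2 * y + 1 := by
    rw [hN]
    exact (Nat.ceil_lt_add_one (by linarith)).le
  have hN128 : 128 ≤ N := by
    have : (128 : ℝ) ≤ N := by linarith
    exact_mod_cast this
  obtain ⟨r, hr⟩ : ∃ r, r = Nat.clog 2 N := ⟨_, rfl⟩
  have hr1 : N ≤ 2 ^ r := by rw [hr]; exact Nat.le_pow_clog (by norm_num) N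
  have hr6 : 6 ≤ r := by
    by_contra h
    have h1 : 2 ^ r ≤ 2 ^ 5 := Nat.pow_le_pow_right (by norm_num) (by omega)
    omega
  have hr2 : 2 ^ r ≤ 2 * N := by
    have h1 := Nat.pow_pred_clog_lt_self (b := 2) (x := N) (by norm_num) (by omega)
    rw [← hr] at h1
    have h2 : 2 ^ r = 2 * 2 ^ r.pred := by
      rw [← pow_succ', Nat.pred_eq_sub_one]
      congr 1
      omega
    omega
  have hb0 : (0 : ℝ) < b := by
    have : 0 < b := by omega
    exact_mod_cast this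
  have hlogb : 0 < Real.log b := by
    by_contra h
    push Not at h
    have h1 : (1 : ℝ) ≤ b := by
      have : 1 ≤ b := by omega
      exact_mod_cast this
    have h2 : 0 ≤ Real.log b := Real.log_nonneg h1
    have h3 : Real.log b = 0 := le_antisymm h h2
    rw [h3, Real.log_zero] at hy
    linarith
  have hexp : Real.log b = Real.exp y := by rw [hy, Real.exp_log hlogb]
  have hlog2 := Real.log_two_gt_d9
  have hlog2' := Real.log_two_lt_d9
  have h2N : Real.exp (2 * y * Real.log 2) ≤ (2 : ℝ) ^ N := by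
    have : (2 : ℝ) ^ N = Real.exp (N * Real.log 2) := by
      rw [Real.exp_nat_mul, Real.exp_log (by norm_num)]
    rw [this]
    apply Real.exp_le_exp.mpr
    apply mul_le_mul_of_nonneg_right hN1 (by linarith)
  have hkey : Real.exp y ≤ (2 : ℝ) ^ N * Real.log 2 := by
    have h1 : Real.exp (2 * y * Real.log 2) = Real.exp y * Real.exp (2 * y * Real.log 2 - y) := by
      rw [← Real.exp_add]; congr 1; ring
    have h2 : 2 ≤ Real.exp (2 * y * Real.log 2 - y) := by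
      have h3 := Real.add_one_le_exp (2 * y * Real.log 2 - y)
      have h4 : 1 ≤ 2 * y * Real.log 2 - y := by nlinarith
      linarith
    have h5 : 2 * Real.exp y ≤ (2 : ℝ) ^ N := by
      calc 2 * Real.exp y ≤ Real.exp y * Real.exp (2 * y * Real.log 2 - y) := by
            rw [mul_comm]
            exact mul_le_mul_of_nonneg_left h2 (Real.exp_pos y).le
        _ ≤ _ := by rw [← h1]; exact h2N
    have h6 := Real.exp_pos y
    have h7 : 2 * Real.exp y * Real.log 2 ≤ (2 : ℝ) ^ N * Real.log 2 :=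
      mul_le_mul_of_nonneg_right h5 (by linarith)
    nlinarith
  have hbR : (b : ℝ) ≤ ((2 ^ (2 ^ N) : ℕ) : ℝ) := by
    rw [Nat.cast_pow, Nat.cast_ofNat]
    calc (b : ℝ) = Real.exp (Real.log b) := (Real.exp_log hb0).symm
      _ = Real.exp (Real.exp y) := by rw [hexp]
      _ ≤ Real.exp ((2 : ℝ) ^ N * Real.log 2) := Real.exp_le_exp.mpr hkey
      _ = Real.exp (((2 ^ N : ℕ) : ℝ) * Real.log 2) := by rw [Nat.cast_pow, Nat.cast_ofNat]
      _ = (2 : ℝ) ^ (2 ^ N) := by rw [Real.exp_nat_mul, Real.exp_log (by norm_num)]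
  have hbN : b ≤ 2 ^ (2 ^ N) := Nat.cast_le.mp hbR
  have hbr : b ≤ 2 ^ (2 ^ (2 ^ r)) :=
    hbN.trans (Nat.pow_le_pow_right (by norm_num) (Nat.pow_le_pow_right (by norm_num) hr1))
  obtain ⟨S, h1, h2, h3⟩ := core r hr6 a b ha hab hbr
  refine ⟨S, ?_, h2, h3⟩
  have h4 : S.card ≤ 80000 * N := by omega
  have h5 : (S.card : ℝ) ≤ 80000 * N := by exact_mod_cast h4
  linarith

theorem upper_bound : ∃ C : ℝ, 0 < C ∧ ∀ᶠ b : ℕ in Filter.atTop, ∀ a : ℕ, 0 < a → a < b →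
    ∃ S : Finset ℕ, (S.card : ℝ) ≤ C * Real.log (Real.log b) ∧ (∀ n ∈ S, 2 ≤ n) ∧
      (∑ n ∈ S, (1 : ℚ) / n) = (a : ℚ) / b := by
  refine ⟨240000, by norm_num, ?_⟩
  filter_upwards [tendsto_loglog.eventually_ge_atTop 64] with b hb a ha hab
  exact upper_pointwise b _ rfl hb a ha hab

theorem exists_rep (a b : ℕ) (ha : 0 < a) (hab : a < b) :
    ∃ S : Finset ℕ, (∀ n ∈ S, 2 ≤ n) ∧ (∑ n ∈ S, (1 : ℚ) / n) = (a : ℚ) / b := by
  rcases greedy_dichotomy a b ha hab a with ⟨S, _, h2, h3⟩ | h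
  · exact ⟨S, h2, h3⟩
  · exfalso
    have h1 := greedy_inv a b ha hab a (fun i hi => h i hi.le)
    have h2 := h a le_rfl
    omega

end Vale.Agent.P012
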